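import Mathlib
import Crest.Prelude.Def_ModularData

/-! Basic facts on a `LineCalculus`: continuity, unitary group, Fourier representation. -/

set_option autoImplicit false

namespace Crest.Agent.R084

open Crest.OpAlg Crest.OpAlg.LineCalculus MeasureTheory Filter BoundedContinuousFunction
open scoped Topology InnerProductSpace ComplexConjugate

variable {H : Type*} [NormedAddCommGroup H] [InnerProductSpace ℂ H] [CompleteSpace H]

lemma norm_app_le (D : LineCalculus H) (f : ℝ →ᵇ ℂ) : ‖D.apply f‖ ≤ ‖f‖ :=
  NonUnitalStarAlgHom.norm_apply_le D.apply f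

lemma norm_app_apply_le (D : LineCalculus H) (f : ℝ →ᵇ ℂ) (y : H) :
    ‖D.apply f y‖ ≤ ‖f‖ * ‖y‖ :=
  ((D.apply f).le_opNorm y).trans (by gcongr; exact norm_app_le D f)

lemma norm_app_apply_le_of_bound (D : LineCalculus H) (f : ℝ →ᵇ ℂ) (y : H) {C : ℝ}
    (hC : ∀ u, ‖f u‖ ≤ C) : ‖D.apply f y‖ ≤ C * ‖y‖ := by
  have h0 : 0 ≤ C := (norm_nonneg _).trans (hC 0)
  refine (norm_app_apply_le D f y).trans ?_
  gcongr
  exact (BoundedContinuousFunction.norm_le h0).2 hC

/-- evaluation of the calculus at a vector, as a continuous linear map in the function -/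
noncomputable def appAt (D : LineCalculus H) (y : H) : (ℝ →ᵇ ℂ) →L[ℂ] H :=
  LinearMap.mkContinuous
    { toFun := fun f => D.apply f y
      map_add' := fun f g => by simp
      map_smul' := fun c f => by simp } ‖y‖
    (fun f => by simpa [mul_comm] using norm_app_apply_le D f y)

@[simp] lemma appAt_apply (D : LineCalculus H) (y : H) (f : ℝ →ᵇ ℂ) :
    appAt D y f = D.apply f y := rfl

lemma app_mul_apply (D : LineCalculus H) (f g : ℝ →ᵇ ℂ) (y : H) :
    D.apply (f * g) y = D.apply f (D.apply g y) := by
  rw [map_mul]; rfl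

lemma app_comm (D : LineCalculus H) (f g : ℝ →ᵇ ℂ) (y : H) :
    D.apply f (D.apply g y) = D.apply g (D.apply f y) := by
  rw [← app_mul_apply, ← app_mul_apply, mul_comm]

lemma inner_app_left (D : LineCalculus H) (f : ℝ →ᵇ ℂ) (x y : H) :
    ⟪D.apply f x, y⟫_ℂ = ⟪x, D.apply (star f) y⟫_ℂ := by
  rw [map_star, ContinuousLinearMap.star_eq_adjoint, ContinuousLinearMap.adjoint_inner_right]

lemma inner_app_right (D : LineCalculus H) (f : ℝ →ᵇ ℂ) (x y : H) :
    ⟪x, D.apply f y⟫_ℂ = ⟪D.apply (star f) x, y⟫_ℂ := by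
  rw [map_star, ContinuousLinearMap.star_eq_adjoint, ContinuousLinearMap.adjoint_inner_left]

lemma eq_zero_of_forall_compact (D : LineCalculus H) (z : H)
    (h : ∀ F : ℝ →ᵇ ℂ, HasCompactSupport (F : ℝ → ℂ) → D.apply F z = 0) : z = 0 := by
  by_contra hz
  have hpos : 0 < ‖z‖ := norm_pos_iff.2 hz
  obtain ⟨F, hF, hlt⟩ := D.window z _ hpos
  rw [h F hF] at hlt
  simp at hlt

lemma eq_of_forall_compact (D : LineCalculus H) (y z : H)
    (h : ∀ F : ℝ →ᵇ ℂ, HasCompactSupport (F : ℝ → ℂ) → D.apply F y = D.apply F z) : y = z := by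
  rw [← sub_eq_zero]
  refine eq_zero_of_forall_compact D _ fun F hF => ?_
  rw [map_sub, h F hF, sub_self]

@[simp] lemma character_apply (t u : ℝ) :
    character t u = Complex.exp (Complex.I * ((t * u : ℝ) : ℂ)) := rfl

lemma norm_character_apply (t u : ℝ) : ‖character t u‖ = 1 := by
  rw [character_apply, Complex.norm_exp]; simp

lemma character_add (s t : ℝ) : character (s + t) = character s * character t := by
  ext u
  simp only [character_apply, BoundedContinuousFunction.coe_mul, Pi.mul_apply]
  rw [← Complex.exp_add]; congr 1; push_cast; ring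

lemma character_zero : character 0 = 1 := by
  ext u; simp

lemma star_character (t : ℝ) : star (character t) = character (-t) := by
  ext u
  simp only [character_apply, BoundedContinuousFunction.star_apply]
  rw [Complex.star_def, ← Complex.exp_conj]; congr 1
  simp

lemma wave_add (D : LineCalculus H) (s t : ℝ) : D.wave (s + t) = D.wave s * D.wave t := by
  simp only [LineCalculus.wave, character_add, map_mul]

lemma wave_zero (D : LineCalculus H) : D.wave 0 = 1 := by
  simp only [LineCalculus.wave, character_zero, map_one]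

lemma star_wave (D : LineCalculus H) (t : ℝ) : star (D.wave t) = D.wave (-t) := by
  simp only [LineCalculus.wave, ← star_character, map_star]

lemma wave_wave (D : LineCalculus H) (s t : ℝ) (y : H) :
    D.wave s (D.wave t y) = D.wave (s + t) y := by
  rw [wave_add]; rfl

lemma wave_neg_wave (D : LineCalculus H) (t : ℝ) (y : H) : D.wave (-t) (D.wave t y) = y := by
  rw [wave_wave, neg_add_cancel, wave_zero]; rfl

lemma wave_wave_neg (D : LineCalculus H) (t : ℝ) (y : H) : D.wave t (D.wave (-t) y) = y := by
  rw [wave_wave, add_neg_cancel, wave_zero]; rfl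

lemma inner_wave_left (D : LineCalculus H) (t : ℝ) (x y : H) :
    ⟪D.wave t x, y⟫_ℂ = ⟪x, D.wave (-t) y⟫_ℂ := by
  simp only [LineCalculus.wave]; rw [inner_app_left, star_character]

lemma inner_wave_right (D : LineCalculus H) (t : ℝ) (x y : H) :
    ⟪x, D.wave t y⟫_ℂ = ⟪D.wave (-t) x, y⟫_ℂ := by
  simp only [LineCalculus.wave]; rw [inner_app_right, star_character]

lemma norm_wave_apply (D : LineCalculus H) (t : ℝ) (y : H) : ‖D.wave t y‖ = ‖y‖ := by
  have h : ⟪D.wave t y, D.wave t y⟫_ℂ = ⟪y, y⟫_ℂ := by rw [inner_wave_left, wave_neg_wave]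
  rw [inner_self_eq_norm_sq_to_K, inner_self_eq_norm_sq_to_K] at h
  have h2 : ‖D.wave t y‖ ^ 2 = ‖y‖ ^ 2 := by exact_mod_cast h
  exact (pow_left_inj₀ (norm_nonneg _) (norm_nonneg _) two_ne_zero).1 h2

lemma app_wave_comm (D : LineCalculus H) (f : ℝ →ᵇ ℂ) (t : ℝ) (y : H) :
    D.apply f (D.wave t y) = D.wave t (D.apply f y) := app_comm D _ _ y

lemma norm_character_sub_le (s t u : ℝ) : ‖character s u - character t u‖ ≤ |s - t| * |u| := by
  have h1 : character s u = character t u * character (s - t) u := by
    have := character_add t (s - t)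
    rw [add_sub_cancel] at this
    rw [this]; rfl
  rw [h1, ← mul_sub_one, norm_mul, norm_character_apply, one_mul, character_apply, ← abs_mul,
    mul_comm Complex.I]
  have := Real.norm_exp_I_mul_ofReal_sub_one_le (x := (s - t) * u)
  rw [mul_comm Complex.I] at this
  simpa using this

lemma continuous_mul_character (F : ℝ →ᵇ ℂ) (hF : HasCompactSupport (F : ℝ → ℂ)) :
    Continuous fun t : ℝ => F * character t := by
  obtain ⟨R, hR⟩ := hF.isCompact.isBounded.exists_norm_le
  have hL : LipschitzWith (‖F‖₊ * ⟨max R 0, le_max_right _ _⟩) fun t : ℝ => F * character t := by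
    refine LipschitzWith.of_dist_le_mul fun s t => ?_
    rw [dist_eq_norm, BoundedContinuousFunction.norm_le (by positivity)]
    intro u
    simp only [BoundedContinuousFunction.coe_sub, BoundedContinuousFunction.coe_mul, Pi.sub_apply,
      Pi.mul_apply, NNReal.coe_mul, coe_nnnorm]
    by_cases hu : u ∈ tsupport (F : ℝ → ℂ)
    · rw [← mul_sub, norm_mul, mul_assoc]
      have h1 := F.norm_coe_le_norm u
      have h2 := norm_character_sub_le s t u
      have h3 : |u| ≤ max R 0 := (hR u hu).trans (le_max_left _ _)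
      have h4 : |s - t| * |u| ≤ max R 0 * dist s t := by
        rw [Real.dist_eq, mul_comm]; gcongr
      exact mul_le_mul h1 (h2.trans h4) (norm_nonneg _) (norm_nonneg _)
    · rw [image_eq_zero_of_notMem_tsupport hu]; simp; positivity
  exact hL.continuous

lemma continuous_wave (D : LineCalculus H) (y : H) : Continuous fun t : ℝ => D.wave t y := by
  refine continuous_of_uniform_approx_of_continuous fun U hU => ?_
  obtain ⟨ε, hε, hεU⟩ := Metric.mem_uniformity_dist.1 hU
  obtain ⟨F, hF, hlt⟩ := D.window y ε hε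
  refine ⟨fun t => appAt D y (F * character t),
    (appAt D y).continuous.comp (continuous_mul_character F hF), fun t => hεU ?_⟩
  beta_reduce
  rw [appAt_apply, mul_comm, app_mul_apply, dist_eq_norm]
  change ‖D.wave t y - D.wave t (D.apply F y)‖ < ε
  rw [← map_sub, norm_wave_apply, norm_sub_rev]
  exact hlt

lemma integrable_smul_of_bound {E : Type*} [NormedAddCommGroup E] [NormedSpace ℂ E]
    {μ : Measure ℝ} {ρ : ℝ → ℂ} (hρ : Integrable ρ μ) {G : ℝ → E} (hG : Continuous G) (C : ℝ)
    (hC : ∀ t, ‖G t‖ ≤ C) : Integrable (fun t => ρ t • G t) μ := by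
  refine Integrable.mono' (hρ.norm.mul_const C)
    (hρ.aestronglyMeasurable.smul hG.aestronglyMeasurable) (Eventually.of_forall fun t => ?_)
  rw [norm_smul]
  gcongr
  exact hC t

lemma integrable_smul_wave (D : LineCalculus H) {μ : Measure ℝ} {ρ : ℝ → ℂ} (hρ : Integrable ρ μ)
    (y : H) : Integrable (fun t => ρ t • D.wave t y) μ :=
  integrable_smul_of_bound hρ (continuous_wave D y) ‖y‖ fun t => (norm_wave_apply D t y).le

/-- Fourier representation of the calculus. -/
lemma app_eq_integral (D : LineCalculus H) {μ : Measure ℝ} {ρ : ℝ → ℂ} (hρ : Integrable ρ μ)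
    (f : ℝ →ᵇ ℂ) (hf : ∀ u, f u = ∫ t, ρ t * character t u ∂μ) (y : H) :
    D.apply f y = ∫ t, ρ t • D.wave t y ∂μ := by
  refine eq_of_forall_compact D _ _ fun F hF => ?_
  have hint : Integrable (fun t => ρ t • (F * character t)) μ := by
    refine integrable_smul_of_bound hρ (continuous_mul_character F hF) ‖F‖ fun t => ?_
    rw [BoundedContinuousFunction.norm_le (norm_nonneg _)]
    intro u
    simp only [BoundedContinuousFunction.coe_mul, Pi.mul_apply, norm_mul, norm_character_apply,
      mul_one]
    exact F.norm_coe_le_norm u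
  have h1 : F * f = ∫ t, ρ t • (F * character t) ∂μ := by
    ext u
    have := (BoundedContinuousFunction.evalCLM ℂ u).integral_comp_comm hint
    simp only [BoundedContinuousFunction.evalCLM_apply] at this
    rw [← this]
    simp only [BoundedContinuousFunction.coe_mul, Pi.mul_apply, hf u,
      BoundedContinuousFunction.coe_smul, smul_eq_mul]
    rw [← integral_const_mul]
    congr 1; ext t; ring
  rw [← app_mul_apply, h1, ← appAt_apply, ← (appAt D y).integral_comp_comm hint,
    ← (D.apply F).integral_comp_comm (integrable_smul_wave D hρ y)]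
  congr 1; ext t
  rw [map_smul, map_smul, appAt_apply, app_mul_apply]; rfl

end Crest.Agent.R084
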