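import Mathlib
import Crest.Agent.R084.Calc

/-! Consequences of the Tomita condition: the vacuum is fixed, a KMS identity, weak integrals. -/

set_option autoImplicit false

namespace Crest.Agent.R084

open Crest.OpAlg Crest.OpAlg.LineCalculus MeasureTheory Filter BoundedContinuousFunction
open scoped Topology InnerProductSpace ComplexConjugate

variable {H : Type*} [NormedAddCommGroup H] [InnerProductSpace ℂ H] [CompleteSpace H]

/-- `F · e^{c u}` for a compactly supported `F`. -/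
noncomputable def mulExp (F : ℝ →ᵇ ℂ) (hF : HasCompactSupport (F : ℝ → ℂ)) (c : ℝ) : ℝ →ᵇ ℂ :=
  ofCompactSupport (fun u => F u * ((Real.exp (c * u) : ℝ) : ℂ)) (by fun_prop) hF.mul_right

@[simp] lemma mulExp_apply (F : ℝ →ᵇ ℂ) (hF : HasCompactSupport (F : ℝ → ℂ)) (c u : ℝ) :
    mulExp F hF c u = F u * ((Real.exp (c * u) : ℝ) : ℂ) := rfl

lemma hasCompactSupport_mulExp (F : ℝ →ᵇ ℂ) (hF : HasCompactSupport (F : ℝ → ℂ)) (c : ℝ) :
    HasCompactSupport (mulExp F hF c : ℝ → ℂ) := hF.mul_right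

lemma half_eq (u : ℝ) : u / 2 = 1 / 2 * u := by ring

lemma inner_J (S : ModularDatum H) (x y : H) : ⟪S.J x, S.J y⟫_ℂ = ⟪y, x⟫_ℂ := by
  have h1 := inner_eq_sum_norm_sq_div_four (𝕜 := ℂ) (S.J x) (S.J y)
  have h2 := inner_eq_sum_norm_sq_div_four (𝕜 := ℂ) y x
  have e1 : ‖S.J x + S.J y‖ = ‖y + x‖ := by rw [← map_add, S.J.norm_map, add_comm]
  have e2 : ‖S.J x - S.J y‖ = ‖y - x‖ := by rw [← map_sub, S.J.norm_map, norm_sub_rev]
  have hI : ∀ z : H, (RCLike.I : ℂ) • S.J z = - S.J ((RCLike.I : ℂ) • z) := fun z => by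
    rw [S.J.map_smulₛₗ]; simp
  have e3 : ‖S.J x - (RCLike.I : ℂ) • S.J y‖ = ‖y - (RCLike.I : ℂ) • x‖ := by
    rw [hI, sub_neg_eq_add, ← map_add, S.J.norm_map]
    have : y - (RCLike.I : ℂ) • x = (-(RCLike.I : ℂ)) • (x + (RCLike.I : ℂ) • y) := by
      simp [smul_smul, sub_eq_add_neg, add_comm]
    rw [this, norm_smul]; simp
  have e4 : ‖S.J x + (RCLike.I : ℂ) • S.J y‖ = ‖y + (RCLike.I : ℂ) • x‖ := by
    rw [hI, ← sub_eq_add_neg, ← map_sub, S.J.norm_map]
    have : y + (RCLike.I : ℂ) • x = ((RCLike.I : ℂ)) • (x - (RCLike.I : ℂ) • y) := by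
      simp [smul_smul, sub_eq_add_neg, add_comm]
    rw [this, norm_smul]; simp
  rw [h1, h2, e1, e2, e3, e4]

lemma halfExp_of_mem (S : ModularDatum H) {a : H →L[ℂ] H} (ha : a ∈ S.M) :
    S.D.HalfExp (a S.vac) (S.J (star a S.vac)) := by
  have : (a S.vac, star a S.vac) ∈ {p : H × H | S.D.HalfExp p.1 (S.J p.2)} := by
    rw [← S.tomita]
    exact subset_closure ⟨⟨a, ha⟩, rfl⟩
  exact this

/-- If `x = g(D) p` with `g` compactly supported and `y = e^{D/2} x` then `y = (g e^{u/2})(D) p`. -/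
lemma halfExp_eq (D : LineCalculus H) {x y p : H} (h : D.HalfExp x y) (g : ℝ →ᵇ ℂ)
    (hg : HasCompactSupport (g : ℝ → ℂ)) (hx : x = D.apply g p) :
    y = D.apply (mulExp g hg (1 / 2)) p := by
  refine eq_of_forall_compact D _ _ fun F hF => ?_
  rw [h F (mulExp F hF (1 / 2)) (fun u => by rw [mulExp_apply, half_eq u]), hx, ← app_mul_apply,
    ← app_mul_apply]
  congr 2
  ext u
  simp only [BoundedContinuousFunction.coe_mul, Pi.mul_apply, mulExp_apply]; ring

lemma halfExp_compact (D : LineCalculus H) (F : ℝ →ᵇ ℂ) (hF : HasCompactSupport (F : ℝ → ℂ))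
    (z : H) : D.HalfExp (D.apply F z) (D.apply (mulExp F hF (1 / 2)) z) := by
  intro f g hfg
  rw [← app_mul_apply, ← app_mul_apply]
  congr 2
  ext u
  simp only [BoundedContinuousFunction.coe_mul, Pi.mul_apply, mulExp_apply, hfg u, half_eq u]
  ring

lemma hasCompactSupport_star {F : ℝ →ᵇ ℂ} (hF : HasCompactSupport (F : ℝ → ℂ)) :
    HasCompactSupport ((star F : ℝ →ᵇ ℂ) : ℝ → ℂ) :=
  hF.comp_left (g := fun z : ℂ => star z) (by simp)

lemma app_mulExp_one_vac (S : ModularDatum H) (F : ℝ →ᵇ ℂ) (hF : HasCompactSupport (F : ℝ → ℂ)) :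
    S.D.apply (mulExp F hF 1) S.vac = S.D.apply F S.vac := by
  have hgraph : ∀ p : H × H, S.D.HalfExp p.1 (S.J p.2) → ⟪p.2, S.vac⟫_ℂ = ⟪S.vac, p.1⟫_ℂ := by
    intro p hp
    have hp' : p ∈ closure (Set.range fun a : S.M =>
        ((a : H →L[ℂ] H) S.vac, star (a : H →L[ℂ] H) S.vac)) := by
      rw [S.tomita]; exact hp
    have hcl : IsClosed {p : H × H | ⟪p.2, S.vac⟫_ℂ = ⟪S.vac, p.1⟫_ℂ} :=
      isClosed_eq (by fun_prop) (by fun_prop)
    refine closure_minimal (t := {p : H × H | ⟪p.2, S.vac⟫_ℂ = ⟪S.vac, p.1⟫_ℂ}) ?_ hcl hp'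
    rintro _ ⟨a, rfl⟩
    simp only [Set.mem_ofPred_eq]
    rw [ContinuousLinearMap.star_eq_adjoint, ContinuousLinearMap.adjoint_inner_left]
  have h1 : S.D.HalfExp S.vac (S.J S.vac) := by
    simpa using halfExp_of_mem S (one_mem S.M)
  have hF' := hasCompactSupport_star hF
  have h2 : S.D.apply (mulExp F hF (1 / 2)) (S.J S.vac) = S.D.apply F S.vac := by
    refine ext_inner_right ℂ fun z => ?_
    have := hgraph (S.D.apply (star F) z, S.J (S.D.apply (mulExp (star F) hF' (1 / 2)) z))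
      (by simpa only [S.J_J] using halfExp_compact S.D (star F) hF' z)
    simp only at this
    rw [inner_app_left S.D F, ← this, ← inner_J S S.vac, S.J_J, inner_app_left]
    congr 3
    ext u
    simp only [BoundedContinuousFunction.star_apply, mulExp_apply, star_mul', Complex.star_def,
      Complex.conj_ofReal]
  rw [← h2]
  refine (h1 _ _ fun u => ?_).symm
  simp only [mulExp_apply]
  rw [mul_assoc, ← Complex.ofReal_mul, ← Real.exp_add]
  congr 3; ring

lemma wave_vac (S : ModularDatum H) (t : ℝ) : S.D.wave t S.vac = S.vac := by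
  refine eq_of_forall_compact S.D _ _ fun F hF => ?_
  -- the quotient (e^{itu} - 1) / (e^u - 1)
  let n : ℝ → ℂ := fun u => character t u
  let d : ℝ → ℂ := fun u => ((Real.exp u : ℝ) : ℂ)
  have hn : Differentiable ℝ n := by
    simp only [n, character_apply]
    have : Differentiable ℝ fun u : ℝ => ((t * u : ℝ) : ℂ) :=
      Complex.ofRealCLM.differentiable.comp (differentiable_id.const_mul t)
    fun_prop
  have hd : Differentiable ℝ d := Complex.ofRealCLM.differentiable.comp Real.differentiable_exp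
  have hcn : Continuous (dslope n 0) := by
    rw [continuous_iff_continuousAt]
    intro u
    rcases eq_or_ne u 0 with rfl | hu
    · exact continuousAt_dslope_same.2 (hn 0)
    · exact (continuousAt_dslope_of_ne hu).2 (hn u).continuousAt
  have hcd : Continuous (dslope d 0) := by
    rw [continuous_iff_continuousAt]
    intro u
    rcases eq_or_ne u 0 with rfl | hu
    · exact continuousAt_dslope_same.2 (hd 0)
    · exact (continuousAt_dslope_of_ne hu).2 (hd u).continuousAt
  have hd0 : ∀ u, dslope d 0 u ≠ 0 := by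
    intro u
    rcases eq_or_ne u 0 with rfl | hu
    · rw [dslope_same]
      have : HasDerivAt d (((Real.exp 0 : ℝ) : ℂ)) 0 := (Real.hasDerivAt_exp 0).ofReal_comp
      rw [this.deriv]; simp
    · intro h
      have := sub_smul_dslope d 0 u
      rw [h, smul_zero, eq_comm, sub_eq_zero] at this
      simp only [d, Complex.ofReal_inj, Real.exp_eq_exp] at this
      exact hu this
  let G : ℝ →ᵇ ℂ := ofCompactSupport (fun u => F u * (dslope n 0 u / dslope d 0 u))
    (F.continuous.mul (hcn.div hcd hd0)) hF.mul_right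
  have hG : HasCompactSupport (G : ℝ → ℂ) := hF.mul_right
  have key : F * character t - F = mulExp G hG 1 - G := by
    ext u
    simp only [BoundedContinuousFunction.coe_sub, BoundedContinuousFunction.coe_mul, Pi.sub_apply,
      Pi.mul_apply, mulExp_apply, one_mul]
    have e1 := sub_smul_dslope n 0 u
    have e2 := sub_smul_dslope d 0 u
    have n0 : n 0 = 1 := by simp [n]
    have d0 : d 0 = 1 := by simp [d]
    rw [n0, sub_zero, Complex.real_smul] at e1
    rw [d0, sub_zero, Complex.real_smul] at e2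
    change F u * n u - F u = F u * (dslope n 0 u / dslope d 0 u) * d u
      - F u * (dslope n 0 u / dslope d 0 u)
    have := hd0 u
    rw [← mul_sub_one, ← mul_sub_one, ← e1, ← e2]
    field_simp
  have := congrArg (fun f => S.D.apply f S.vac) key
  simp only [map_sub, _root_.sub_apply, app_mulExp_one_vac, sub_self, sub_eq_zero]
    at this
  rw [← this, app_mul_apply]; rfl

lemma flow_apply (S : ModularDatum H) (t : ℝ) (a : H →L[ℂ] H) (y : H) :
    S.flow t a y = S.D.wave t (a (S.D.wave (-t) y)) := rfl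

lemma flow_vac (S : ModularDatum H) (t : ℝ) (a : H →L[ℂ] H) :
    S.flow t a S.vac = S.D.wave t (a S.vac) := by rw [flow_apply, wave_vac]

lemma flow_mem (S : ModularDatum H) (t : ℝ) {a : H →L[ℂ] H} (ha : a ∈ S.M) : S.flow t a ∈ S.M :=
  S.flow_mem t a ha

lemma star_flow (S : ModularDatum H) (t : ℝ) (a : H →L[ℂ] H) :
    star (S.flow t a) = S.flow t (star a) := by
  simp only [ModularDatum.flow, star_mul, star_wave, neg_neg, mul_assoc]

lemma flow_mul (S : ModularDatum H) (t : ℝ) (a b : H →L[ℂ] H) :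
    S.flow t a * S.flow t b = S.flow t (a * b) := by
  ext y
  simp only [mul_apply_eq_comp, flow_apply, wave_neg_wave]

lemma norm_flow_apply_le (S : ModularDatum H) (t : ℝ) (a : H →L[ℂ] H) (y : H) :
    ‖S.flow t a y‖ ≤ ‖a‖ * ‖y‖ := by
  rw [flow_apply, norm_wave_apply]
  refine (a.le_opNorm _).trans ?_
  rw [norm_wave_apply]

lemma continuous_wave₂ (D : LineCalculus H) {G : ℝ → H} (hG : Continuous G) :
    Continuous fun t : ℝ => D.wave t (G t) := by
  rw [continuous_iff_continuousAt]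
  intro t₀
  have h1 : Tendsto (fun t => D.wave t (G t₀)) (𝓝 t₀) (𝓝 (D.wave t₀ (G t₀))) :=
    (continuous_wave D (G t₀)).tendsto t₀
  have h2 : Tendsto (fun t => D.wave t (G t - G t₀)) (𝓝 t₀) (𝓝 0) := by
    rw [tendsto_zero_iff_norm_tendsto_zero]
    simp only [norm_wave_apply]
    exact tendsto_iff_norm_sub_tendsto_zero.1 (hG.tendsto t₀)
  have := h1.add h2
  simp only [map_sub, add_sub_cancel, add_zero] at this
  exact this

lemma continuous_flow_apply (S : ModularDatum H) (a : H →L[ℂ] H) (y : H) :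
    Continuous fun t : ℝ => S.flow t a y :=
  continuous_wave₂ S.D (a.continuous.comp ((continuous_wave S.D y).comp continuous_neg))

lemma integrable_smul_flow (S : ModularDatum H) {μ : Measure ℝ} {ρ : ℝ → ℂ} (hρ : Integrable ρ μ)
    (a : H →L[ℂ] H) (y : H) : Integrable (fun t => ρ t • S.flow t a y) μ :=
  integrable_smul_of_bound hρ (continuous_flow_apply S a y) _ fun t => norm_flow_apply_le S t a y

lemma norm_integral_smul_flow_le (S : ModularDatum H) {μ : Measure ℝ} {ρ : ℝ → ℂ}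
    (hρ : Integrable ρ μ) (a : H →L[ℂ] H) (y : H) :
    ‖∫ t, ρ t • S.flow t a y ∂μ‖ ≤ (∫ t, ‖ρ t‖ ∂μ) * ‖a‖ * ‖y‖ := by
  rw [mul_assoc, ← integral_mul_const]
  refine norm_integral_le_of_norm_le (hρ.norm.mul_const _) (Eventually.of_forall fun t => ?_)
  rw [norm_smul]
  gcongr
  exact norm_flow_apply_le S t a y

/-- The weak integral `∫ ρ(t) σ_t(a) dμ(t)`. -/
noncomputable def smear (S : ModularDatum H) (μ : Measure ℝ) (ρ : ℝ → ℂ) (hρ : Integrable ρ μ)
    (a : H →L[ℂ] H) : H →L[ℂ] H :=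
  LinearMap.mkContinuous
    { toFun := fun y => ∫ t, ρ t • S.flow t a y ∂μ
      map_add' := fun y z => by
        rw [← integral_add (integrable_smul_flow S hρ a y) (integrable_smul_flow S hρ a z)]
        simp only [map_add, smul_add]
      map_smul' := fun c y => by
        simp only [map_smul, RingHom.id_apply, smul_comm _ c]
        rw [integral_smul] }
    ((∫ t, ‖ρ t‖ ∂μ) * ‖a‖) (fun y => norm_integral_smul_flow_le S hρ a y)

lemma smear_apply (S : ModularDatum H) (μ : Measure ℝ) (ρ : ℝ → ℂ) (hρ : Integrable ρ μ)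
    (a : H →L[ℂ] H) (y : H) : smear S μ ρ hρ a y = ∫ t, ρ t • S.flow t a y ∂μ := rfl

lemma norm_smear_le (S : ModularDatum H) (μ : Measure ℝ) (ρ : ℝ → ℂ) (hρ : Integrable ρ μ)
    (a : H →L[ℂ] H) : ‖smear S μ ρ hρ a‖ ≤ (∫ t, ‖ρ t‖ ∂μ) * ‖a‖ :=
  LinearMap.mkContinuous_norm_le _
    (mul_nonneg (integral_nonneg fun _ => norm_nonneg _) (norm_nonneg _)) _

lemma mem_of_comm (M : VonNeumannAlgebra H) (b : H →L[ℂ] H)
    (h : ∀ c ∈ M.commutant, ∀ y, c (b y) = b (c y)) : b ∈ M := by
  rw [← M.commutant_commutant, VonNeumannAlgebra.mem_commutant_iff]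
  intro c hc
  ext y
  exact h c hc y

lemma comm_of_mem (M : VonNeumannAlgebra H) {b c : H →L[ℂ] H} (hb : b ∈ M)
    (hc : c ∈ M.commutant) (y : H) : c (b y) = b (c y) := by
  have := VonNeumannAlgebra.mem_commutant_iff.1 hc b hb
  exact (congrArg (fun f : H →L[ℂ] H => f y) this).symm

lemma smear_mem (S : ModularDatum H) (μ : Measure ℝ) (ρ : ℝ → ℂ) (hρ : Integrable ρ μ)
    {a : H →L[ℂ] H} (ha : a ∈ S.M) : smear S μ ρ hρ a ∈ S.M := by
  refine mem_of_comm _ _ fun c hc y => ?_
  rw [smear_apply, smear_apply, ← c.integral_comp_comm (integrable_smul_flow S hρ a y)]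
  congr 1; ext t
  rw [map_smul, comm_of_mem S.M (flow_mem S t ha) hc]

lemma star_smear (S : ModularDatum H) (μ : Measure ℝ) (ρ : ℝ → ℂ) (hρ : Integrable ρ μ)
    (hρ' : Integrable (fun t => conj (ρ t)) μ) (a : H →L[ℂ] H) :
    star (smear S μ ρ hρ a) = smear S μ (fun t => conj (ρ t)) hρ' (star a) := by
  symm
  rw [ContinuousLinearMap.star_eq_adjoint (smear S μ ρ hρ a), ContinuousLinearMap.eq_adjoint_iff]
  intro x y
  rw [smear_apply, smear_apply, ← integral_inner (integrable_smul_flow S hρ a y),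
    ← inner_conj_symm, ← integral_inner (integrable_smul_flow S hρ' (star a) x), ← integral_conj]
  congr 1; ext t
  rw [inner_conj_symm, inner_smul_left, inner_smul_right, ← star_flow,
    ContinuousLinearMap.star_eq_adjoint, ContinuousLinearMap.adjoint_inner_left]
  simp

lemma smear_vac (S : ModularDatum H) (μ : Measure ℝ) (ρ : ℝ → ℂ) (hρ : Integrable ρ μ)
    (f : ℝ →ᵇ ℂ) (hf : ∀ u, f u = ∫ t, ρ t * character t u ∂μ) (a : H →L[ℂ] H) :
    smear S μ ρ hρ a S.vac = S.D.apply f (a S.vac) := by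
  rw [smear_apply, app_eq_integral S.D hρ f hf]
  simp only [flow_vac]

/-- The KMS identity, in the form needed. -/
lemma kms (S : ModularDatum H) {x : H →L[ℂ] H} (hx : x ∈ S.M) (g : ℝ →ᵇ ℂ)
    (hg : HasCompactSupport (g : ℝ → ℂ)) (p : H) (hp : star x S.vac = S.D.apply g p) :
    ∃ y : H, ∀ b ∈ S.M, ⟪x S.vac, b (x S.vac)⟫_ℂ = ⟪star b S.vac, y⟫_ℂ := by
  refine ⟨x (S.D.apply (mulExp g hg 1) p), fun b hb => ?_⟩
  have h1 := halfExp_of_mem S (star_mem hx)
  rw [star_star] at h1
  have h1' := halfExp_eq S.D h1 g hg hp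
  have h2 := halfExp_of_mem S (star_mem (mul_mem hb hx))
  rw [star_star] at h2
  have h3 := h2 (star (mulExp g hg (1 / 2))) (star (mulExp g hg 1)) (fun u => by
    simp only [BoundedContinuousFunction.star_apply, mulExp_apply, star_mul', Complex.star_def,
      Complex.conj_ofReal]
    rw [mul_assoc, ← Complex.ofReal_mul, ← Real.exp_add]
    congr 3; ring)
  rw [← inner_J S, h1', inner_app_right]
  change ⟪S.D.apply _ (S.J ((b * x) S.vac)), p⟫_ℂ = _
  rw [h3, ← inner_app_right, star_mul, mul_apply_eq_comp,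
    ContinuousLinearMap.star_eq_adjoint x, ContinuousLinearMap.adjoint_inner_left]

end Crest.Agent.R084
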