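import Mathlib
import Crest.Agent.R084.Calc

/-! Smooth cut-offs with a scale invariant `L¹` bound on the Fourier side. -/

set_option autoImplicit false

namespace Crest.Agent.R084

open Crest.OpAlg Crest.OpAlg.LineCalculus MeasureTheory Filter BoundedContinuousFunction
open scoped Topology InnerProductSpace ComplexConjugate FourierTransform Real ContDiff

lemma exists_base_bump : ∃ (χ : ℝ → ℂ) (g : ℝ → ℂ), Continuous χ ∧ Integrable g ∧
    (∀ w, χ w = ∫ v : ℝ, Complex.exp (((2 * π * (v * w) : ℝ) : ℂ) * Complex.I) * g v) ∧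
    (∀ u, |u| ≤ 1 → χ u = 1) ∧ (∀ u, 2 ≤ |u| → χ u = 0) ∧ ∀ u, ‖χ u‖ ≤ 1 := by
  let b : ContDiffBump (0 : ℝ) := ⟨1, 2, one_pos, one_lt_two⟩
  have hsm : ContDiff ℝ ∞ (fun u => ((b u : ℝ) : ℂ)) :=
    Complex.ofRealCLM.contDiff.comp b.contDiff
  have hcs : HasCompactSupport (fun u => ((b u : ℝ) : ℂ)) :=
    b.hasCompactSupport.comp_left (g := fun x : ℝ => (x : ℂ)) (by simp)
  let φ : SchwartzMap ℝ ℂ := hcs.toSchwartzMap hsm
  have hφ : (φ : ℝ → ℂ) = fun u => ((b u : ℝ) : ℂ) := rfl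
  have hint : Integrable (𝓕 (φ : ℝ → ℂ)) := by
    rw [← SchwartzMap.fourier_coe]; exact (𝓕 φ).integrable
  refine ⟨φ, 𝓕 (φ : ℝ → ℂ), φ.continuous, hint, fun w => ?_, fun u hu => ?_, fun u hu => ?_,
    fun u => ?_⟩
  · have := congrFun (φ.continuous.fourierInv_fourier_eq φ.integrable hint) w
    rw [← this, Real.fourierInv_eq']
    congr 1; ext v
    simp [mul_comm w v]
  · rw [hφ]; simp only
    rw [b.one_of_mem_closedBall (by simpa using hu)]; simp
  · rw [hφ]; simp only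
    rw [b.zero_of_le_dist (by simpa using hu)]; simp
  · rw [hφ]; simp only [Complex.norm_real, Real.norm_eq_abs]
    rw [abs_of_nonneg b.nonneg]; exact b.le_one

lemma exists_bump : ∃ L : ℝ, 0 ≤ L ∧ ∀ s δ : ℝ, 0 < δ → ∃ (ρ : ℝ → ℂ) (f : ℝ →ᵇ ℂ),
    Integrable ρ ∧ ∫ t, ‖ρ t‖ ≤ L ∧ (∀ u, f u = ∫ t, ρ t * character t u) ∧
    (∀ u ∈ Set.Icc (s - δ) (s + δ), f u = 1) ∧
    (∀ u, u ∉ Set.Ioo (s - 2 * δ) (s + 2 * δ) → f u = 0) ∧ ∀ u, ‖f u‖ ≤ 1 := by
  obtain ⟨χ, g, hχ, hg, hrep, h1, h0, hle⟩ := exists_base_bump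
  refine ⟨∫ v, ‖g v‖, integral_nonneg fun _ => norm_nonneg _, fun s δ hδ => ?_⟩
  set a : ℝ := δ / (2 * π) with ha
  have ha0 : 0 < a := by positivity
  have hga : Integrable fun t => g (a * t) := hg.comp_mul_left' ha0.ne'
  let ρ : ℝ → ℂ := fun t => (a : ℂ) * (g (a * t) * character t (-s))
  have hnorm : ∀ t, ‖ρ t‖ = a * ‖g (a * t)‖ := fun t => by
    simp only [ρ, norm_mul, norm_character_apply, mul_one, Complex.norm_real, Real.norm_eq_abs,
      abs_of_pos ha0]
  have hρ : Integrable ρ := by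
    refine Integrable.const_mul ?_ _
    refine hga.mul_bdd (c := 1) ?_ (Eventually.of_forall fun t => (norm_character_apply _ _).le)
    refine Continuous.aestronglyMeasurable ?_
    simp only [character_apply]; fun_prop
  let f : ℝ →ᵇ ℂ := BoundedContinuousFunction.ofNormedAddCommGroup (fun u => χ ((u - s) / δ))
    (by fun_prop) 1 fun u => hle _
  have hf : ∀ u, f u = χ ((u - s) / δ) := fun u => rfl
  refine ⟨ρ, f, hρ, ?_, fun u => ?_, fun u hu => ?_, fun u hu => ?_, fun u => hle _⟩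
  · simp_rw [hnorm]
    rw [integral_const_mul, Measure.integral_comp_mul_left (fun v => ‖g v‖) a, smul_eq_mul,
      abs_of_pos (inv_pos.2 ha0), ← mul_assoc, mul_inv_cancel₀ ha0.ne', one_mul]
  · rw [hf, hrep]
    set G : ℝ → ℂ := fun v =>
      Complex.exp (((2 * π * (v * ((u - s) / δ)) : ℝ) : ℂ) * Complex.I) * g v with hG
    have hpt : ∀ t, ρ t * character t u = (a : ℂ) * G (a * t) := fun t => by
      simp only [ρ, hG, character_apply]
      have : 2 * π * (a * t * ((u - s) / δ)) = t * (-s) + t * u := by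
        rw [ha]; field_simp; ring
      rw [this, mul_assoc, mul_assoc, ← Complex.exp_add, mul_comm (g _)]
      congr 3; push_cast; ring
    simp_rw [hpt]
    rw [integral_const_mul, Measure.integral_comp_mul_left G a, abs_of_pos (inv_pos.2 ha0),
      Complex.real_smul, ← mul_assoc, ← Complex.ofReal_mul, mul_inv_cancel₀ ha0.ne']
    simp
  · rw [hf]; apply h1
    rw [abs_div, abs_of_pos hδ, div_le_one hδ, abs_le]
    constructor <;> linarith [hu.1, hu.2]
  · rw [hf]; apply h0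
    rw [abs_div, abs_of_pos hδ, le_div_iff₀ hδ, le_abs]
    simp only [Set.mem_Ioo, not_and_or, not_lt] at hu
    rcases hu with hu | hu
    · right; linarith
    · left; linarith

end Crest.Agent.R084
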