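import Mathlib
import Crest.Agent.R084.Modular

/-! The mean ergodic theorem for the modular group of an ergodic state. -/

set_option autoImplicit false

namespace Crest.Agent.R084

open Crest.OpAlg Crest.OpAlg.LineCalculus MeasureTheory Filter BoundedContinuousFunction
open scoped Topology InnerProductSpace ComplexConjugate

variable {H : Type*} [NormedAddCommGroup H] [InnerProductSpace ℂ H] [CompleteSpace H]

lemma norm_setAverage_le {E : Type*} [NormedAddCommGroup E] [NormedSpace ℝ E] {F : ℝ → E}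
    {s : Set ℝ} (hs : volume s < ⊤) {C : ℝ} (hC : ∀ t, ‖F t‖ ≤ C) : ‖⨍ t in s, F t‖ ≤ C := by
  have h0 : 0 ≤ C := (norm_nonneg _).trans (hC 0)
  rw [setAverage_eq, norm_smul, norm_inv, Real.norm_eq_abs, abs_of_nonneg measureReal_nonneg]
  have := norm_setIntegral_le_of_norm_le_const (μ := volume) (f := F) hs fun t _ => hC t
  rcases eq_or_lt_of_le (measureReal_nonneg (μ := volume) (s := s)) with h | h
  · rw [← h]; simpa using h0
  · rw [inv_mul_le_iff₀ h, mul_comm]; exact this

lemma integrableOn_Icc_of_continuous {E : Type*} [NormedAddCommGroup E] {F : ℝ → E}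
    (hF : Continuous F) (a b : ℝ) : IntegrableOn F (Set.Icc a b) :=
  hF.continuousOn.integrableOn_Icc

/-- window average of the unitary group -/
noncomputable def avg (D : LineCalculus H) (k : ℕ) : H →L[ℂ] H :=
  LinearMap.mkContinuous
    { toFun := fun y => ⨍ t in Set.Icc (-(k : ℝ)) (k : ℝ), D.wave t y
      map_add' := fun y z => by
        simp only [setAverage_eq, map_add]
        rw [integral_add (integrableOn_Icc_of_continuous (continuous_wave D y) _ _)
          (integrableOn_Icc_of_continuous (continuous_wave D z) _ _), smul_add]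
      map_smul' := fun c y => by
        simp only [setAverage_eq, map_smul, RingHom.id_apply]
        rw [integral_smul, smul_comm] }
    1 (fun y => by
      rw [one_mul]
      exact norm_setAverage_le measure_Icc_lt_top fun t => (norm_wave_apply D t y).le)

lemma avg_apply (D : LineCalculus H) (k : ℕ) (y : H) :
    avg D k y = ⨍ t in Set.Icc (-(k : ℝ)) (k : ℝ), D.wave t y := rfl

lemma norm_avg_apply_le (D : LineCalculus H) (k : ℕ) (y : H) : ‖avg D k y‖ ≤ ‖y‖ :=
  norm_setAverage_le measure_Icc_lt_top fun t => (norm_wave_apply D t y).le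

lemma volume_window_ne_zero {k : ℕ} (hk : 1 ≤ k) : volume (Set.Icc (-(k : ℝ)) (k : ℝ)) ≠ 0 := by
  have : (0 : ℝ) < k := by exact_mod_cast hk
  simp only [Real.volume_Icc, ne_eq, ENNReal.ofReal_eq_zero, not_le]
  linarith

lemma avg_of_fixed (D : LineCalculus H) {k : ℕ} (hk : 1 ≤ k) {z : H} (hz : ∀ t, D.wave t z = z) :
    avg D k z = z := by
  rw [avg_apply]
  simp only [hz]
  exact setAverage_const (volume_window_ne_zero hk) measure_Icc_lt_top.ne z

lemma norm_avg_wave_sub_le (D : LineCalculus H) {k : ℕ} (hk : 1 ≤ k) (s : ℝ) (y : H) :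
    ‖avg D k (D.wave s y - y)‖ ≤ |s| * ‖y‖ / k := by
  have hk0 : (0 : ℝ) < k := by exact_mod_cast hk
  have hle : -(k : ℝ) ≤ k := by linarith
  set F : ℝ → H := fun t => D.wave t y with hF
  have hFc : Continuous F := continuous_wave D y
  have h1 : ∫ t in Set.Icc (-(k : ℝ)) (k : ℝ), D.wave t (D.wave s y - y)
      = (∫ t in (k : ℝ)..(k + s), F t) - ∫ t in (-k : ℝ)..(-k + s), F t := by
    rw [integral_Icc_eq_integral_Ioc, ← intervalIntegral.integral_of_le hle]
    have : ∀ t, D.wave t (D.wave s y - y) = F (t + s) - F t := fun t => by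
      rw [map_sub, wave_wave]
    simp only [this]
    have hFs : Continuous fun t => F (t + s) := hFc.comp (continuous_add_const s)
    rw [intervalIntegral.integral_sub (hFs.intervalIntegrable _ _)
      (hFc.intervalIntegrable _ _), intervalIntegral.integral_comp_add_right F s,
      intervalIntegral.integral_interval_sub_interval_comm' (hFc.intervalIntegrable _ _)
        (hFc.intervalIntegrable _ _) (hFc.intervalIntegrable _ _)]
  have h2 : ∀ a : ℝ, ‖∫ t in a..(a + s), F t‖ ≤ ‖y‖ * |s| := fun a => by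
    have := intervalIntegral.norm_integral_le_of_norm_le_const (a := a) (b := a + s) (f := F)
      (C := ‖y‖) fun t _ => (norm_wave_apply D t y).le
    simpa using this
  rw [avg_apply, setAverage_eq, h1, norm_smul, norm_inv, Real.norm_eq_abs,
    abs_of_nonneg measureReal_nonneg, Real.volume_real_Icc_of_le hle]
  have h3 := (norm_sub_le _ _).trans (add_le_add (h2 k) (h2 (-k)))
  rw [inv_mul_le_iff₀ (by linarith)]
  refine h3.trans (le_of_eq ?_)
  field_simp; ring

omit [CompleteSpace H] in
lemma isClosed_tendsto_zero (A : ℕ → H →L[ℂ] H) (R : ℝ) (hA : ∀ k y, ‖A k y‖ ≤ R * ‖y‖) :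
    IsClosed {y | Tendsto (fun k => A k y) atTop (𝓝 0)} := by
  refine isClosed_of_closure_subset fun y hy => ?_
  simp only [Set.mem_ofPred_eq]
  rw [Metric.tendsto_atTop]
  intro ε hε
  have hR : 0 < |R| + 1 := by positivity
  obtain ⟨z, hz, hd⟩ := Metric.mem_closure_iff.1 hy (ε / 2 / (|R| + 1)) (by positivity)
  obtain ⟨N, hN⟩ := Metric.tendsto_atTop.1 hz (ε / 2) (by positivity)
  refine ⟨N, fun k hk => ?_⟩
  have h1 := hN k hk
  rw [dist_zero_right] at h1 ⊢
  rw [dist_eq_norm, lt_div_iff₀ hR] at hd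
  have h2 := hA k (y - z)
  have h3 : A k y = A k z + A k (y - z) := by simp
  have h4 : R * ‖y - z‖ ≤ ‖y - z‖ * (|R| + 1) := by
    rw [mul_comm]; gcongr; linarith [le_abs_self R]
  rw [h3]
  linarith [norm_add_le (A k z) (A k (y - z))]

omit [CompleteSpace H] in
lemma isClosed_cauchy (A : ℕ → H →L[ℂ] H) (R : ℝ) (hA : ∀ k y, ‖A k y‖ ≤ R * ‖y‖) :
    IsClosed {y | CauchySeq (fun k => A k y)} := by
  refine isClosed_of_closure_subset fun y hy => ?_
  simp only [Set.mem_ofPred_eq]
  rw [Metric.cauchySeq_iff]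
  intro ε hε
  have hR : 0 < |R| + 1 := by positivity
  obtain ⟨z, hz, hd⟩ := Metric.mem_closure_iff.1 hy (ε / 3 / (|R| + 1)) (by positivity)
  obtain ⟨N, hN⟩ := Metric.cauchySeq_iff.1 hz (ε / 3) (by positivity)
  refine ⟨N, fun k hk l hl => ?_⟩
  have h1 := hN k hk l hl
  rw [dist_eq_norm] at h1 ⊢
  rw [dist_eq_norm, lt_div_iff₀ hR] at hd
  have h2 := hA k (y - z)
  have h2' := hA l (y - z)
  have h3 : A k y - A l y = (A k z - A l z) + (A k (y - z) - A l (y - z)) := by
    simp only [map_sub]; abel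
  have h4 : R * ‖y - z‖ ≤ ‖y - z‖ * (|R| + 1) := by
    rw [mul_comm]; gcongr; linarith [le_abs_self R]
  rw [h3]
  linarith [norm_add_le (A k z - A l z) (A k (y - z) - A l (y - z)),
    norm_sub_le (A k (y - z)) (A l (y - z))]

/-- the vectors whose window averages tend to zero -/
def nullSub (D : LineCalculus H) : Submodule ℂ H where
  carrier := {y | Tendsto (fun k => avg D k y) atTop (𝓝 0)}
  add_mem' := fun {y z} hy hz => by
    simpa only [Set.mem_ofPred_eq, map_add, add_zero] using Tendsto.add hy hz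
  zero_mem' := by simp
  smul_mem' := fun c y hy => by
    simpa only [Set.mem_ofPred_eq, map_smul, smul_zero] using Tendsto.const_smul hy c

lemma isClosed_nullSub (D : LineCalculus H) : IsClosed (nullSub D : Set H) :=
  isClosed_tendsto_zero (avg D) 1 fun k y => by rw [one_mul]; exact norm_avg_apply_le D k y

lemma wave_sub_mem_nullSub (D : LineCalculus H) (s : ℝ) (y : H) : D.wave s y - y ∈ nullSub D := by
  change Tendsto (fun k => avg D k (D.wave s y - y)) atTop (𝓝 0)
  rw [tendsto_zero_iff_norm_tendsto_zero]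
  refine squeeze_zero' (Eventually.of_forall fun _ => norm_nonneg _) ?_
    (tendsto_const_div_atTop_nhds_zero_nat (|s| * ‖y‖))
  filter_upwards [eventually_ge_atTop 1] with k hk
  exact norm_avg_wave_sub_le D hk s y

/-- von Neumann's mean ergodic theorem -/
lemma exists_tendsto_avg (D : LineCalculus H) (y : H) :
    ∃ z : H, (∀ t, D.wave t z = z) ∧ Tendsto (fun k => avg D k y) atTop (𝓝 z) := by
  have : CompleteSpace (nullSub D) := (isClosed_nullSub D).completeSpace_coe
  obtain ⟨n, hn, z, hz, rfl⟩ := (nullSub D).exists_add_mem_mem_orthogonal y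
  have hfix : ∀ t, D.wave t z = z := fun t => by
    refine ext_inner_left ℂ fun w => ?_
    have := (Submodule.mem_orthogonal _ _).1 hz _ (wave_sub_mem_nullSub D (-t) w)
    rw [inner_sub_left, sub_eq_zero] at this
    rw [inner_wave_right, this]
  refine ⟨z, hfix, ?_⟩
  have h1 : Tendsto (fun k => avg D k n + z) atTop (𝓝 (0 + z)) := Tendsto.add_const z hn
  rw [zero_add] at h1
  refine h1.congr' ?_
  filter_upwards [eventually_ge_atTop 1] with k hk
  rw [map_add, avg_of_fixed D hk hfix]

/-- a separating vector is cyclic for the commutant -/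
lemma dense_commutant_vac (S : ModularDatum H) :
    Dense {y : H | ∃ c ∈ S.M.commutant, c S.vac = y} := by
  let V : Submodule ℂ H :=
    { carrier := {y : H | ∃ c ∈ S.M.commutant, c S.vac = y}
      add_mem' := by
        rintro _ _ ⟨c, hc, rfl⟩ ⟨d, hd, rfl⟩
        exact ⟨c + d, add_mem hc hd, rfl⟩
      zero_mem' := ⟨0, zero_mem _, rfl⟩
      smul_mem' := by
        rintro z _ ⟨c, hc, rfl⟩
        exact ⟨z • c, S.M.commutant.toStarSubalgebra.smul_mem hc z, rfl⟩ }
  let W := V.topologicalClosure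
  have : CompleteSpace W := V.isClosed_topologicalClosure.completeSpace_coe
  have hP : W.starProjection ∈ S.M := by
    rw [VonNeumannAlgebra.IsStarProjection.mem_iff isStarProjection_starProjection]
    intro c hc
    rw [Submodule.range_starProjection, Module.End.mem_invtSubmodule_iff_forall_mem_of_mem]
    intro y hy
    have hmaps : Set.MapsTo c (V : Set H) (V : Set H) := by
      rintro _ ⟨d, hd, rfl⟩
      exact ⟨c * d, mul_mem hc hd, rfl⟩
    exact hmaps.closure c.continuous hy
  have hvac : S.vac ∈ W := subset_closure ⟨1, one_mem _, rfl⟩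
  have h1 : (1 : H →L[ℂ] H) - W.starProjection = 0 := by
    refine S.separating _ (sub_mem (one_mem _) hP) ?_
    rw [_root_.sub_apply, Submodule.starProjection_eq_self_iff.2 hvac]
    simp
  intro y
  have h2 : W.starProjection y = y := by
    have := congrArg (fun f : H →L[ℂ] H => f y) h1
    simp only [_root_.sub_apply, one_apply_eq_self, zero_apply,
      sub_eq_zero] at this
    exact this.symm
  exact Submodule.starProjection_eq_self_iff.1 h2

lemma exists_mem_of_tendsto (S : ModularDatum H) (b : ℕ → H →L[ℂ] H) (hb : ∀ k, b k ∈ S.M)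
    (R : ℝ) (hR : ∀ k y, ‖b k y‖ ≤ R * ‖y‖) {z : H}
    (hz : Tendsto (fun k => b k S.vac) atTop (𝓝 z)) : ∃ c ∈ S.M, c S.vac = z := by
  have hcau : ∀ y, CauchySeq fun k => b k y := by
    intro y
    refine closure_minimal (t := {y | CauchySeq (fun k => b k y)}) ?_ (isClosed_cauchy b R hR)
      (dense_commutant_vac S y)
    rintro _ ⟨c, hc, rfl⟩
    simp only [Set.mem_ofPred_eq, ← comm_of_mem S.M (hb _) hc]
    exact ((c.continuous.tendsto z).comp hz).cauchySeq
  choose g hg using fun y => cauchySeq_tendsto_of_complete (hcau y)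
  let c : H →L[ℂ] H := continuousLinearMapOfTendsto b (f := g) (tendsto_pi_nhds.2 hg)
  have hc : ∀ y, c y = g y := fun y => rfl
  refine ⟨c, mem_of_comm _ _ fun d hd y => ?_, ?_⟩
  · rw [hc, hc]
    refine tendsto_nhds_unique ((d.continuous.tendsto _).comp (hg y)) ?_
    refine (hg (d y)).congr fun k => ?_
    exact (comm_of_mem S.M (hb k) hd y).symm
  · rw [hc]; exact tendsto_nhds_unique (hg _) hz

lemma inner_vac_avg (S : ModularDatum H) {k : ℕ} (hk : 1 ≤ k) (y : H) :
    ⟪S.vac, avg S.D k y⟫_ℂ = ⟪S.vac, y⟫_ℂ := by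
  rw [avg_apply, setAverage_eq, ← Complex.coe_smul, inner_smul_right,
    ← integral_inner (integrableOn_Icc_of_continuous (continuous_wave S.D y) _ _)]
  simp only [inner_wave_right, wave_vac]
  rw [← smul_eq_mul, Complex.coe_smul, ← setAverage_eq]
  exact setAverage_const (volume_window_ne_zero hk) measure_Icc_lt_top.ne _

lemma sub_mem_nullSub (S : ModularDatum H) (herg : S.Ergodic) {a : H →L[ℂ] H} (ha : a ∈ S.M) :
    a S.vac - ⟪S.vac, a S.vac⟫_ℂ • S.vac ∈ nullSub S.D := by
  obtain ⟨z, hfix, hz⟩ := exists_tendsto_avg S.D (a S.vac)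
  let μ : ℕ → Measure ℝ := fun k => volume.restrict (Set.Icc (-(k : ℝ)) (k : ℝ))
  let ρ : ℕ → ℝ → ℂ := fun k _ => (((volume.real (Set.Icc (-(k : ℝ)) (k : ℝ)))⁻¹ : ℝ) : ℂ)
  have hρ : ∀ k, Integrable (ρ k) (μ k) := fun k => by
    have : IsFiniteMeasure (μ k) := ⟨by simp [μ]⟩
    exact integrable_const _
  let b : ℕ → H →L[ℂ] H := fun k => smear S (μ k) (ρ k) (hρ k) a
  have hb : ∀ k y, b k y = ⨍ t in Set.Icc (-(k : ℝ)) (k : ℝ), S.flow t a y := fun k y => by
    simp only [b, smear_apply, ρ, μ]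
    rw [integral_smul, setAverage_eq, Complex.coe_smul]
  obtain ⟨c, hc, hcz⟩ := exists_mem_of_tendsto S b (fun k => smear_mem S _ _ _ ha) ‖a‖
    (fun k y => by
      rw [hb]
      exact norm_setAverage_le measure_Icc_lt_top fun t => norm_flow_apply_le S t a y)
    (z := z) (by simpa only [hb, flow_vac, avg_apply] using hz)
  obtain ⟨e, he⟩ := herg c hc fun t => by
    rw [← sub_eq_zero]
    refine S.separating _ (sub_mem (flow_mem S t hc) hc) ?_
    rw [_root_.sub_apply, flow_vac, hcz, hfix, sub_self]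
  have hze : z = e • S.vac := by rw [← hcz, he]; rfl
  have he' : ⟪S.vac, a S.vac⟫_ℂ = e := by
    have h1 : Tendsto (fun k => ⟪S.vac, avg S.D k (a S.vac)⟫_ℂ) atTop (𝓝 ⟪S.vac, z⟫_ℂ) :=
      tendsto_const_nhds.inner hz
    have h2 : Tendsto (fun k => ⟪S.vac, avg S.D k (a S.vac)⟫_ℂ) atTop
        (𝓝 ⟪S.vac, a S.vac⟫_ℂ) := by
      refine tendsto_const_nhds.congr' ?_
      filter_upwards [eventually_ge_atTop 1] with k hk
      exact (inner_vac_avg S hk _).symm
    rw [tendsto_nhds_unique h2 h1, hze, inner_smul_right, inner_self_eq_norm_sq_to_K, S.norm_vac]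
    simp
  change Tendsto (fun k => avg S.D k (a S.vac - ⟪S.vac, a S.vac⟫_ℂ • S.vac)) atTop (𝓝 0)
  rw [he', ← hze]
  have h1 : Tendsto (fun k => avg S.D k (a S.vac) - z) atTop (𝓝 (z - z)) := hz.sub_const z
  rw [sub_self] at h1
  refine h1.congr' ?_
  filter_upwards [eventually_ge_atTop 1] with k hk
  rw [map_sub, avg_of_fixed S.D hk hfix]

theorem tendsto_avg (S : ModularDatum H) (herg : S.Ergodic) (y : H) :
    Tendsto (fun k => avg S.D k y) atTop (𝓝 (⟪S.vac, y⟫_ℂ • S.vac)) := by
  have hcl : IsClosed {y : H | y - ⟪S.vac, y⟫_ℂ • S.vac ∈ nullSub S.D} :=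
    (isClosed_nullSub S.D).preimage (f := fun y : H => y - ⟪S.vac, y⟫_ℂ • S.vac) (by fun_prop)
  have hy : y - ⟪S.vac, y⟫_ℂ • S.vac ∈ nullSub S.D := by
    refine closure_minimal (t := {y : H | y - ⟪S.vac, y⟫_ℂ • S.vac ∈ nullSub S.D}) ?_ hcl
      (S.cyclic y)
    rintro _ ⟨a, rfl⟩
    exact sub_mem_nullSub S herg a.2
  have h1 : Tendsto (fun k => avg S.D k (y - ⟪S.vac, y⟫_ℂ • S.vac) + ⟪S.vac, y⟫_ℂ • S.vac) atTop
      (𝓝 (0 + ⟪S.vac, y⟫_ℂ • S.vac)) := Tendsto.add_const _ hy
  rw [zero_add] at h1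
  refine h1.congr' ?_
  filter_upwards [eventually_ge_atTop 1] with k hk
  rw [map_sub, map_smul, avg_of_fixed S.D hk (wave_vac S), sub_add_cancel]

end Crest.Agent.R084
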