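import Mathlib

/-! Random phases (a fourth moment Khintchine estimate) and truncation of bounded operators. -/

set_option autoImplicit false

namespace Crest.Agent.R084

open Finset
open scoped InnerProductSpace ComplexConjugate

variable {H : Type*} [NormedAddCommGroup H] [InnerProductSpace ℂ H]

lemma sum_norm_sq_char {G κ : Type*} [AddCommGroup G] [Fintype G] (ℓ : κ → G →+ ZMod 3)
    (s : Finset κ) (hℓ : Set.InjOn ℓ s) (y : κ → H) :
    ∑ g : G, ‖∑ k ∈ s, (ZMod.stdAddChar (ℓ k g) : ℂ) • y k‖ ^ 2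
      = Fintype.card G * ∑ k ∈ s, ‖y k‖ ^ 2 := by
  classical
  have horth : ∀ k ∈ s, ∀ l ∈ s,
      ∑ g : G, conj (ZMod.stdAddChar (ℓ k g) : ℂ) * (ZMod.stdAddChar (ℓ l g) : ℂ)
        = if k = l then (Fintype.card G : ℂ) else 0 := by
    intro k hk l hl
    have h1 : ∀ g : G, conj (ZMod.stdAddChar (ℓ k g) : ℂ) * (ZMod.stdAddChar (ℓ l g) : ℂ)
        = (ZMod.stdAddChar.compAddMonoidHom (ℓ l - ℓ k)) g := fun g => by
      rw [← AddChar.map_neg_eq_conj, ← AddChar.map_add_eq_mul, AddChar.compAddMonoidHom_apply,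
        AddMonoidHom.sub_apply]
      congr 1; ring
    simp only [h1]
    rw [AddChar.sum_eq_ite]
    congr 1
    apply propext
    constructor
    · intro h
      have h0 : (ZMod.stdAddChar (N := 3)).compAddMonoidHom (0 : G →+ ZMod 3) = 0 := by
        ext g; simp
      have := AddChar.compAddMonoidHom_injective_right _ (ZMod.injective_stdAddChar (N := 3))
        (h.trans h0.symm)
      exact hℓ hk hl (sub_eq_zero.1 this).symm
    · rintro rfl
      ext g; simp
  have key : ∑ g : G, ⟪∑ k ∈ s, (ZMod.stdAddChar (ℓ k g) : ℂ) • y k,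
      ∑ k ∈ s, (ZMod.stdAddChar (ℓ k g) : ℂ) • y k⟫_ℂ
      = Fintype.card G * ∑ k ∈ s, ⟪y k, y k⟫_ℂ := by
    simp only [sum_inner, inner_sum, inner_smul_left, inner_smul_right]
    rw [Finset.sum_comm, Finset.mul_sum]
    refine Finset.sum_congr rfl fun l hl => ?_
    simp only [Finset.mul_sum]
    rw [Finset.sum_comm]
    have : ∀ k ∈ s, ∑ g : G, (ZMod.stdAddChar (ℓ l g) : ℂ) *
        (conj (ZMod.stdAddChar (ℓ k g) : ℂ) * ⟪y k, y l⟫_ℂ)
        = (if k = l then (Fintype.card G : ℂ) else 0) * ⟪y k, y l⟫_ℂ := fun k hk => by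
      rw [← horth k hk l hl, Finset.sum_mul]
      refine Finset.sum_congr rfl fun g _ => by ring
    rw [Finset.sum_congr rfl this]
    simp [hl]
  simp only [inner_self_eq_norm_sq_to_K] at key
  apply Complex.ofReal_injective
  push_cast
  exact key

variable [CompleteSpace H]

lemma exists_phases {ι : Type} [Fintype ι] (X : ι → H →L[ℂ] H) (ξ : H) (T : H →L[ℂ] H) (μ : ℝ)
    (hμ : 0 ≤ μ) : ∃ z : ι → ℂ,
      ∑ i, ‖T (X i ξ)‖ ^ 2 - μ * (2 * ‖∑ i, star (X i) (X i ξ)‖ ^ 2
          + 2 * ∑ i, ∑ j, ‖star (X i) (X j ξ)‖ ^ 2)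
        ≤ ‖T ((∑ i, z i • X i) ξ)‖ ^ 2
          - μ * ‖star (∑ i, z i • X i) ((∑ i, z i • X i) ξ)‖ ^ 2 := by
  classical
  let G := ι → ZMod 3
  let e : ι → G →+ ZMod 3 := fun i => Pi.evalAddMonoidHom (fun _ => ZMod 3) i
  have he : ∀ i g, e i g = g i := fun i g => rfl
  have hinj : Function.Injective e := fun i j h => by
    by_contra hij
    have := congrArg (fun f : G →+ ZMod 3 => f (Pi.single i 1)) h
    simp only [he, Pi.single_eq_same, Pi.single_eq_of_ne' hij] at this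
    exact absurd this (by decide)
  let d : ι × ι → G →+ ZMod 3 := fun p => e p.2 - e p.1
  have hd : Set.InjOn d (univ.offDiag : Finset (ι × ι)) := by
    rintro ⟨i, j⟩ hij ⟨k, l⟩ hkl h
    simp only [coe_offDiag, coe_univ, Set.mem_offDiag, Set.mem_univ, true_and] at hij hkl
    have hjl : j = l := by
      by_contra hjl
      have := congrArg (fun f : G →+ ZMod 3 => f (Pi.single j 1)) h
      simp only [d, AddMonoidHom.sub_apply, he, Pi.single_eq_same, Pi.single_eq_of_ne hij,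
        Pi.single_eq_of_ne' hjl] at this
      by_cases hk : k = j
      · subst hk
        simp only [Pi.single_eq_same] at this
        exact absurd this (by decide)
      · simp only [Pi.single_eq_of_ne hk] at this
        exact absurd this (by decide)
    subst hjl
    simp only [d, sub_right_inj] at h
    rw [hinj h]
  let z : G → ι → ℂ := fun g i => ZMod.stdAddChar (e i g)
  have h1 : ∑ g : G, ‖T ((∑ i, z g i • X i) ξ)‖ ^ 2 = Fintype.card G * ∑ i, ‖T (X i ξ)‖ ^ 2 := by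
    rw [← sum_norm_sq_char e univ hinj.injOn]
    refine Finset.sum_congr rfl fun g _ => ?_
    simp [z, map_sum]
  have h2 := sum_norm_sq_char d univ.offDiag hd (fun p => star (X p.1) (X p.2 ξ))
  have h3 : ∀ g : G, star (∑ i, z g i • X i) ((∑ i, z g i • X i) ξ)
      = ∑ i, star (X i) (X i ξ)
        + ∑ p ∈ univ.offDiag, (ZMod.stdAddChar (d p g) : ℂ) • star (X p.1) (X p.2 ξ) := by
    intro g
    have e1 : star (∑ i, z g i • X i) ((∑ i, z g i • X i) ξ)
        = ∑ p ∈ univ ×ˢ univ, (ZMod.stdAddChar (d p g) : ℂ) • star (X p.1) (X p.2 ξ) := by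
      rw [Finset.sum_product, star_sum]
      simp only [_root_.sum_apply, map_sum, star_smul, _root_.smul_apply,
        map_smul, Finset.smul_sum, smul_smul]
      rw [Finset.sum_comm]
      refine Finset.sum_congr rfl fun i _ => Finset.sum_congr rfl fun j _ => ?_
      congr 1
      simp only [z, d, AddMonoidHom.sub_apply, Complex.star_def]
      rw [← AddChar.map_neg_eq_conj, ← AddChar.map_add_eq_mul, sub_eq_add_neg]
    rw [e1, ← Finset.diag_union_offDiag, Finset.sum_union (Finset.disjoint_diag_offDiag _),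
      Finset.sum_diag]
    simp [d]
  have h4 : ∑ p ∈ (univ : Finset ι).offDiag, ‖star (X p.1) (X p.2 ξ)‖ ^ 2
      ≤ ∑ i, ∑ j, ‖star (X i) (X j ξ)‖ ^ 2 := by
    rw [← Finset.sum_product']
    exact Finset.sum_le_sum_of_subset_of_nonneg (fun p _ => by simp) fun _ _ _ => by positivity
  have h5 : ∑ g : G, ‖star (∑ i, z g i • X i) ((∑ i, z g i • X i) ξ)‖ ^ 2
      ≤ Fintype.card G * (2 * ‖∑ i, star (X i) (X i ξ)‖ ^ 2
          + 2 * ∑ i, ∑ j, ‖star (X i) (X j ξ)‖ ^ 2) := by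
    calc _ ≤ ∑ g : G, (2 * ‖∑ i, star (X i) (X i ξ)‖ ^ 2 + 2 * ‖∑ p ∈ univ.offDiag,
            (ZMod.stdAddChar (d p g) : ℂ) • star (X p.1) (X p.2 ξ)‖ ^ 2) := by
          refine Finset.sum_le_sum fun g _ => ?_
          rw [h3]
          set A := ∑ i, star (X i) (X i ξ)
          set B := ∑ p ∈ univ.offDiag, (ZMod.stdAddChar (d p g) : ℂ) • star (X p.1) (X p.2 ξ)
          have := norm_add_le A B
          have h0 := norm_nonneg (A + B)
          nlinarith [sq_nonneg (‖A‖ - ‖B‖), norm_nonneg A, norm_nonneg B]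
      _ ≤ _ := by
          rw [Finset.sum_add_distrib, ← Finset.mul_sum, ← Finset.mul_sum, h2]
          simp only [Finset.sum_const, Finset.card_univ, nsmul_eq_mul]
          have : (0 : ℝ) ≤ Fintype.card G := Nat.cast_nonneg _
          nlinarith [mul_le_mul_of_nonneg_left h4 this]
  have hsum : ∑ _g : G, (∑ i, ‖T (X i ξ)‖ ^ 2 - μ * (2 * ‖∑ i, star (X i) (X i ξ)‖ ^ 2
          + 2 * ∑ i, ∑ j, ‖star (X i) (X j ξ)‖ ^ 2))
      ≤ ∑ g : G, (‖T ((∑ i, z g i • X i) ξ)‖ ^ 2
          - μ * ‖star (∑ i, z g i • X i) ((∑ i, z g i • X i) ξ)‖ ^ 2) := by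
    rw [Finset.sum_sub_distrib (s := univ) (f := fun g => ‖T ((∑ i, z g i • X i) ξ)‖ ^ 2), h1,
      ← Finset.mul_sum]
    simp only [Finset.sum_const, Finset.card_univ, nsmul_eq_mul]
    nlinarith [mul_le_mul_of_nonneg_left h5 hμ]
  obtain ⟨g, -, hg⟩ := Finset.exists_le_of_sum_le Finset.univ_nonempty hsum
  exact ⟨z g, hg⟩

lemma exists_truncation (M : VonNeumannAlgebra H) {v : H →L[ℂ] H} (hv : v ∈ M) {C : ℝ}
    (hC : 0 < C) : ∃ w ∈ M, ‖w‖ ≤ C ∧ ∀ y, ‖v y - w y‖ ≤ ‖star v (v y)‖ / C := by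
  let A : H →L[ℂ] H := 1 + (((C ^ 2)⁻¹ : ℝ) : ℂ) • (star v * v)
  have hA : ∀ y, A y = y + (((C ^ 2)⁻¹ : ℝ) : ℂ) • star v (v y) := fun y => rfl
  have hin : ∀ y, ⟪A y, y⟫_ℂ = ((‖y‖ ^ 2 + (C ^ 2)⁻¹ * ‖v y‖ ^ 2 : ℝ) : ℂ) := fun y => by
    rw [hA, inner_add_left, inner_smul_left, ContinuousLinearMap.star_eq_adjoint,
      ContinuousLinearMap.adjoint_inner_left, inner_self_eq_norm_sq_to_K,
      inner_self_eq_norm_sq_to_K]
    simp
  have hU : IsUnit A := by
    refine ContinuousLinearMap.isUnit_of_forall_le_norm_inner_map A (c := 1) one_pos fun y => ?_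
    rw [hin, Complex.norm_real, Real.norm_eq_abs, abs_of_nonneg (by positivity)]
    simp only [NNReal.coe_one, mul_one, le_add_iff_nonneg_right]
    positivity
  obtain ⟨u, hu⟩ := hU
  let R : H →L[ℂ] H := ↑u⁻¹
  have hAR : A * R = 1 := by rw [← hu]; exact u.mul_inv
  have hRA : R * A = 1 := by rw [← hu]; exact u.inv_mul
  have hAM : A ∈ M := add_mem (one_mem _)
    (M.toStarSubalgebra.smul_mem (mul_mem (star_mem hv) hv) _)
  have hRM : R ∈ M := by
    rw [← M.commutant_commutant, VonNeumannAlgebra.mem_commutant_iff]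
    intro c hc
    have h := VonNeumannAlgebra.mem_commutant_iff.1 hc A hAM
    calc c * R = (R * A) * c * R := by rw [hRA, one_mul]
      _ = R * c * (A * R) := by rw [mul_assoc R A, h]; simp only [mul_assoc]
      _ = R * c := by rw [hAR, mul_one]
  have hbound : ∀ y, ‖v (R y)‖ ≤ C * ‖y‖ := fun y => by
    set z := R y with hz
    have hy : A z = y := by
      have := congrArg (fun f : H →L[ℂ] H => f y) hAR
      exact this
    have h1 : ‖z‖ ^ 2 + (C ^ 2)⁻¹ * ‖v z‖ ^ 2 ≤ ‖y‖ * ‖z‖ := by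
      have := norm_inner_le_norm (𝕜 := ℂ) (A z) z
      rw [hin, Complex.norm_real, Real.norm_eq_abs, abs_of_nonneg (by positivity), hy] at this
      exact this
    have h2 : (C ^ 2)⁻¹ * ‖v z‖ ^ 2 ≤ ‖y‖ ^ 2 := by nlinarith [sq_nonneg (‖y‖ - ‖z‖), sq_nonneg ‖z‖]
    rw [inv_mul_le_iff₀ (by positivity), ← mul_pow] at h2
    exact (pow_le_pow_iff_left₀ (norm_nonneg _) (by positivity) two_ne_zero).1 h2
  refine ⟨v * R, mul_mem hv hRM, ContinuousLinearMap.opNorm_le_bound _ hC.le hbound, fun y => ?_⟩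
  have h1 : y = R y + (((C ^ 2)⁻¹ : ℝ) : ℂ) • R (star v (v y)) := by
    have := congrArg (fun f : H →L[ℂ] H => f y) hRA
    change R (A y) = y at this
    rw [hA, map_add, map_smul] at this
    exact this.symm
  have h2 : v y - (v * R) y = (((C ^ 2)⁻¹ : ℝ) : ℂ) • v (R (star v (v y))) := by
    change v y - v (R y) = _
    rw [← map_sub, ← map_smul]
    congr 1
    rw [sub_eq_iff_eq_add']
    exact h1
  rw [h2, norm_smul, Complex.norm_real, Real.norm_eq_abs, abs_of_nonneg (by positivity)]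
  calc (C ^ 2)⁻¹ * ‖v (R (star v (v y)))‖ ≤ (C ^ 2)⁻¹ * (C * ‖star v (v y)‖) := by
        gcongr; exact hbound _
    _ = ‖star v (v y)‖ / C := by field_simp

end Crest.Agent.R084
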