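import Mathlib
import Crest.Agent.R084.Bump
import Crest.Agent.R084.Ergodic
import Crest.Agent.R084.Random

/-! Assembly of the bounded recovery argument for one vector. -/

set_option autoImplicit false

namespace Crest.Agent.R084

open Crest.OpAlg Crest.OpAlg.LineCalculus MeasureTheory Filter BoundedContinuousFunction
open scoped Topology InnerProductSpace ComplexConjugate

variable {H : Type*} [NormedAddCommGroup H] [InnerProductSpace ℂ H] [CompleteSpace H]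

lemma exists_window (ω : Ultrafilter ℕ) (hω : (ω : Filter ℕ) ≤ atTop) {g : ℝ → ℝ} {B : ℝ}
    (hB : ∀ t, ‖g t‖ ≤ B) {c : ℝ} (hc : c < ultraMean ω g) {p : ℕ → Prop}
    (hp : ∀ᶠ k in atTop, p k) : ∃ k, p k ∧ c < windowMean g k := by
  have hmem : ∀ k, windowMean g k ∈ Metric.closedBall (0 : ℝ) B := fun k => by
    rw [mem_closedBall_zero_iff]
    exact norm_setAverage_le measure_Icc_lt_top hB
  obtain ⟨x, -, hx⟩ := (isCompact_closedBall (0 : ℝ) B).ultrafilter_le_nhds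
    (ω.map (windowMean g)) (by
      rw [Ultrafilter.coe_map, le_principal_iff, mem_map]
      exact univ_mem' hmem)
  have hx' : Tendsto (windowMean g) (ω : Filter ℕ) (𝓝 x) := hx
  have hlim : ultraMean ω g = x := hx'.limUnder_eq
  rw [hlim] at hc
  have h1 : ∀ᶠ k in (ω : Filter ℕ), c < windowMean g k := hx'.eventually (lt_mem_nhds hc)
  exact ((hp.filter_mono hω).and h1).exists

lemma exists_convex (S : ModularDatum H) (herg : S.Ergodic) (ω : Ultrafilter ℕ)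
    (hω : (ω : Filter ℕ) ≤ atTop) {g : ℝ → ℝ} (hg : Continuous g) {B : ℝ}
    (hB : ∀ t, ‖g t‖ ≤ B) {c : ℝ} (hc : c < ultraMean ω g) (y₁ y₂ y₃ : H) :
    ∃ (ι : Type) (_ : Fintype ι) (w : ι → ℝ) (t : ι → ℝ), (∀ i, 0 ≤ w i) ∧ ∑ i, w i = 1 ∧
      c ≤ ∑ i, w i * g (t i) ∧
      ‖∑ i, w i • S.D.wave (t i) y₁‖ ≤ ‖⟪S.vac, y₁⟫_ℂ‖ + 2 ∧
      ‖∑ i, w i • S.D.wave (t i) y₂‖ ≤ ‖⟪S.vac, y₂⟫_ℂ‖ + 2 ∧
      ‖∑ i, w i • S.D.wave (t i) y₃‖ ≤ ‖⟪S.vac, y₃⟫_ℂ‖ + 2 := by
  have hev : ∀ y : H, ∀ᶠ k in atTop, ‖avg S.D k y‖ < ‖⟪S.vac, y⟫_ℂ‖ + 1 := fun y => by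
    have h1 := (tendsto_avg S herg y).norm
    rw [norm_smul, S.norm_vac, mul_one] at h1
    exact h1.eventually (gt_mem_nhds (lt_add_one _))
  obtain ⟨k, ⟨hk, h1, h2, h3⟩, hck⟩ := exists_window ω hω hB hc
    ((eventually_ge_atTop 1).and ((hev y₁).and ((hev y₂).and (hev y₃))))
  let F : ℝ → ℝ × H × H × H := fun t => (g t, S.D.wave t y₁, S.D.wave t y₂, S.D.wave t y₃)
  have hw := continuous_wave S.D
  have hF : Continuous F := hg.prodMk ((hw _).prodMk ((hw _).prodMk (hw _)))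
  have hmem := (convex_convexHull ℝ (Set.range F)).set_average_mem_closure (μ := volume)
    (volume_window_ne_zero hk) measure_Icc_lt_top.ne (f := F)
    (Eventually.of_forall fun t => subset_convexHull ℝ _ ⟨t, rfl⟩)
    (integrableOn_Icc_of_continuous hF _ _)
  have havg : ⨍ t in Set.Icc (-(k : ℝ)) (k : ℝ), F t
      = (windowMean g k, avg S.D k y₁, avg S.D k y₂, avg S.D k y₃) := by
    simp only [F]
    rw [average_pair (integrableOn_Icc_of_continuous hg _ _)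
        (integrableOn_Icc_of_continuous ((hw _).prodMk ((hw _).prodMk (hw _))) _ _),
      average_pair (integrableOn_Icc_of_continuous (hw _) _ _)
        (integrableOn_Icc_of_continuous ((hw _).prodMk (hw _)) _ _),
      average_pair (integrableOn_Icc_of_continuous (hw _) _ _)
        (integrableOn_Icc_of_continuous (hw _) _ _)]
    rfl
  rw [havg] at hmem
  obtain ⟨q, hq, hd⟩ := Metric.mem_closure_iff.1 hmem (min 1 (windowMean g k - c))
    (lt_min one_pos (sub_pos.2 hck))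
  obtain ⟨ι, hι, w, z, hw0, hw1, hz, rfl⟩ := mem_convexHull_iff_exists_fintype.1 hq
  choose t ht using hz
  have hz' : z = fun i => F (t i) := funext fun i => (ht i).symm
  subst hz'
  rw [Prod.dist_eq, Prod.dist_eq, Prod.dist_eq] at hd
  simp only [max_lt_iff, lt_min_iff, Prod.fst_sum, Prod.snd_sum, Prod.smul_fst, Prod.smul_snd, F,
    smul_eq_mul] at hd
  obtain ⟨⟨-, hd1, hd2, hd3⟩, hd0, -⟩ := hd
  have aux : ∀ (a b : H) (r : ℝ), ‖a‖ < r + 1 → dist a b < 1 → ‖b‖ ≤ r + 2 := fun a b r h h' => by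
    rw [dist_eq_norm] at h'
    have : ‖b‖ ≤ ‖a‖ + ‖a - b‖ := by
      calc ‖b‖ = ‖a - (a - b)‖ := by simp
        _ ≤ _ := norm_sub_le _ _
    linarith
  refine ⟨ι, hι, w, t, hw0, hw1, ?_, aux _ _ _ h1 hd1, aux _ _ _ h2 hd2, aux _ _ _ h3 hd3⟩
  rw [Real.dist_eq, abs_lt] at hd0
  linarith [hd0.2]

lemma hasCompactSupport_of_zero_outside {f : ℝ → ℂ} {a b : ℝ}
    (h : ∀ u, u ∉ Set.Ioo a b → f u = 0) : HasCompactSupport f :=
  HasCompactSupport.intro (isCompact_Icc (a := a) (b := b)) fun u hu =>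
    h u fun hu' => hu (Set.Ioo_subset_Icc_self hu')

lemma exists_analytic (S : ModularDatum H) {s δ : ℝ} (hδ : 0 < δ) (hδ1 : δ ≤ 1) {h : H}
    (hh : ‖h‖ = 1) (hband : S.D.SupportedIn (Set.Icc (s - δ) (s + δ)) h) {ε : ℝ} (hε : 0 < ε)
    (hε1 : ε ≤ 1) : ∃ x ∈ S.M, ‖x S.vac - h‖ ≤ ε ∧
      (∀ f' : ℝ →ᵇ ℂ, (∀ u ∈ Set.Icc (s - 2 * δ) (s + 2 * δ), f' u = 1) →
        S.D.apply f' (x S.vac) = x S.vac) ∧
      ‖star x S.vac‖ ≤ Real.exp ((s + 2) / 2) * 2 ∧
      ∃ y : H, ∀ b ∈ S.M, ⟪x S.vac, b (x S.vac)⟫_ℂ = ⟪star b S.vac, y⟫_ℂ := by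
  obtain ⟨L, -, hL⟩ := exists_bump
  obtain ⟨ρ, f, hρ, -, hrep, hf1, hf0, hfle⟩ := hL s δ hδ
  have hfc : HasCompactSupport (f : ℝ → ℂ) := hasCompactSupport_of_zero_outside hf0
  obtain ⟨_, ⟨a, rfl⟩, ha⟩ := Metric.mem_closure_iff.1 (S.cyclic h) ε hε
  rw [dist_comm, dist_eq_norm] at ha
  have hfh : S.D.apply f h = h := by
    have := hband (f - 1) fun u hu => by simp [hf1 u hu]
    rw [map_sub, map_one, _root_.sub_apply, sub_eq_zero] at this
    exact this
  have hna : ‖(a : H →L[ℂ] H) S.vac‖ ≤ 2 := by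
    calc ‖(a : H →L[ℂ] H) S.vac‖ = ‖((a : H →L[ℂ] H) S.vac - h) + h‖ := by simp
      _ ≤ ‖(a : H →L[ℂ] H) S.vac - h‖ + ‖h‖ := norm_add_le _ _
      _ ≤ 2 := by linarith
  set x := smear S volume ρ hρ a with hx
  have hxM : x ∈ S.M := smear_mem S _ _ _ a.2
  have hxv : x S.vac = S.D.apply f ((a : H →L[ℂ] H) S.vac) := smear_vac S _ _ _ f hrep _
  refine ⟨x, hxM, ?_, fun f' hf' => ?_, ?_, ?_⟩
  · rw [hxv, ← hfh, ← map_sub]
    refine (norm_app_apply_le_of_bound S.D f _ hfle).trans ?_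
    linarith
  · rw [hxv, ← app_mul_apply]
    congr 2
    ext u
    by_cases hu : u ∈ Set.Ioo (s - 2 * δ) (s + 2 * δ)
    · simp [hf' u (Set.Ioo_subset_Icc_self hu)]
    · simp [hf0 u hu]
  · rw [← S.J.norm_map, halfExp_eq S.D (halfExp_of_mem S hxM) f hfc hxv]
    refine (norm_app_apply_le_of_bound S.D _ _ (C := Real.exp ((s + 2) / 2)) fun u => ?_).trans ?_
    · rw [mulExp_apply, norm_mul, Complex.norm_real, Real.norm_eq_abs,
        abs_of_pos (Real.exp_pos _)]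
      by_cases hu : u ∈ Set.Ioo (s - 2 * δ) (s + 2 * δ)
      · calc ‖f u‖ * Real.exp (1 / 2 * u) ≤ 1 * Real.exp ((s + 2) / 2) := by
              gcongr
              · exact hfle u
              · linarith [hu.2]
          _ = _ := one_mul _
      · rw [hf0 u hu]; simp [(Real.exp_pos _).le]
    · gcongr
  · have hρ' : Integrable (fun t => conj (ρ t)) :=
      (Complex.conjCLE.toContinuousLinearMap.integrable_comp hρ)
    let g : ℝ →ᵇ ℂ := star (f.compContinuous ⟨fun u => -u, continuous_neg⟩)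
    have hg : ∀ u, g u = conj (f (-u)) := fun u => rfl
    have hgc : HasCompactSupport (g : ℝ → ℂ) := by
      refine hasCompactSupport_of_zero_outside (a := -(s + 2 * δ)) (b := -(s - 2 * δ))
        fun u hu => ?_
      rw [hg, hf0, map_zero]
      intro hu'
      exact hu ⟨by linarith [hu'.2], by linarith [hu'.1]⟩
    refine kms S hxM g hgc (star (a : H →L[ℂ] H) S.vac) ?_
    rw [hx, star_smear S _ _ hρ hρ']
    refine smear_vac S _ _ _ g (fun u => ?_) _
    rw [hg, hrep, ← integral_conj]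
    congr 1; ext t
    rw [map_mul, character_apply, character_apply, ← Complex.exp_conj]
    congr 2
    simp

theorem step (S : ModularDatum H) (herg : S.Ergodic) (ω : Ultrafilter ℕ)
    (hω : (ω : Filter ℕ) ≤ atTop) (T : H →L[ℂ] H) (s c : ℝ) (hc : 0 < c) :
    ∃ C η : ℝ, 0 < η ∧ ∀ (δ : ℝ) (h : H), 0 < δ → δ ≤ 1 → ‖h‖ = 1 →
      S.D.SupportedIn (Set.Icc (s - δ) (s + δ)) h →
      c ≤ ultraMean ω (fun t : ℝ => ‖T (S.D.wave t h)‖ ^ 2) →
      ∃ v ∈ S.M, ‖v‖ ≤ C ∧ η ≤ ‖T (v S.vac)‖ ∧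
        S.D.SupportedIn (Set.Icc (s - 4 * δ) (s + 4 * δ)) (v S.vac) := by
  obtain ⟨L, hL0, hL⟩ := exists_bump
  set E : ℝ := (Real.exp ((s + 2) / 2) * 2) ^ 2 + 2 with hE
  have hE0 : 0 < E := by positivity
  set K : ℝ := 2 * 6 ^ 2 + 2 * (E * 6) with hK
  have hK0 : 0 < K := by positivity
  set μ : ℝ := c / (16 * K) with hμ
  have hμ0 : 0 < μ := by positivity
  set C₀ : ℝ := 2 * (‖T‖ + 1) / Real.sqrt μ with hC₀
  have hC₀0 : 0 < C₀ := by positivity
  set ε : ℝ := min 1 (Real.sqrt (c / 8) / (‖T‖ + 1)) with hε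
  have hε0 : 0 < ε := lt_min one_pos (by positivity)
  have hεT : (‖T‖ * ε) ^ 2 ≤ c / 8 := by
    have h1 : ε ≤ Real.sqrt (c / 8) / (‖T‖ + 1) := min_le_right _ _
    rw [le_div_iff₀ (by positivity)] at h1
    have h2 : ‖T‖ * ε ≤ Real.sqrt (c / 8) := by nlinarith [norm_nonneg T]
    calc (‖T‖ * ε) ^ 2 ≤ Real.sqrt (c / 8) ^ 2 := by gcongr
      _ = c / 8 := Real.sq_sqrt (by positivity)
  refine ⟨L * C₀, Real.sqrt c / 8, by positivity, fun δ h hδ hδ1 hh hband hmean => ?_⟩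
  obtain ⟨x, hxM, hxh, hxf, hxs, y, hy⟩ :=
    exists_analytic S hδ hδ1 hh hband hε0 (min_le_left _ _)
  have hx2 : ‖x S.vac‖ ≤ 2 := by
    calc ‖x S.vac‖ = ‖(x S.vac - h) + h‖ := by simp
      _ ≤ ‖x S.vac - h‖ + ‖h‖ := norm_add_le _ _
      _ ≤ 2 := by linarith [min_le_left 1 (Real.sqrt (c / 8) / (‖T‖ + 1))]
  have hx4 : ‖x S.vac‖ ^ 2 ≤ 4 := by nlinarith [norm_nonneg (x S.vac)]
  obtain ⟨ι, hι, w, t, hw0, hw1, hg, h1, h2, h3⟩ := exists_convex S herg ω hω
    (g := fun t : ℝ => ‖T (S.D.wave t h)‖ ^ 2)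
    ((T.continuous.comp (continuous_wave S.D h)).norm.pow 2) (B := ‖T‖ ^ 2) (fun t => by
      rw [Real.norm_eq_abs, abs_of_nonneg (by positivity)]
      gcongr
      refine (T.le_opNorm _).trans ?_
      rw [norm_wave_apply, hh, mul_one]) (c := c / 2) (by linarith)
    (star x (x S.vac)) (x (star x S.vac)) y
  have e1 : ‖⟪S.vac, star x (x S.vac)⟫_ℂ‖ = ‖x S.vac‖ ^ 2 := by
    rw [ContinuousLinearMap.star_eq_adjoint, ContinuousLinearMap.adjoint_inner_right,
      inner_self_eq_norm_sq_to_K]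
    simp
  have e2 : ‖⟪S.vac, x (star x S.vac)⟫_ℂ‖ = ‖star x S.vac‖ ^ 2 := by
    rw [← ContinuousLinearMap.adjoint_inner_left, ← ContinuousLinearMap.star_eq_adjoint,
      inner_self_eq_norm_sq_to_K]
    simp
  have e3 : ‖⟪S.vac, y⟫_ℂ‖ = ‖x S.vac‖ ^ 2 := by
    have := hy 1 (one_mem _)
    simp only [one_apply_eq_self, star_one] at this
    rw [← this, inner_self_eq_norm_sq_to_K]
    simp
  have h1' : ‖∑ i, w i • S.D.wave (t i) (star x (x S.vac))‖ ≤ 6 := by linarith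
  have h3' : ‖∑ i, w i • S.D.wave (t i) y‖ ≤ 6 := by linarith
  have h2' : ‖∑ i, w i • S.D.wave (t i) (x (star x S.vac))‖ ≤ E := by
    have : ‖star x S.vac‖ ^ 2 ≤ (Real.exp ((s + 2) / 2) * 2) ^ 2 := by gcongr
    linarith
  let X : ι → H →L[ℂ] H := fun i => ((Real.sqrt (w i) : ℝ) : ℂ) • S.flow (t i) x
  have hXM : ∀ i, X i ∈ S.M := fun i => S.M.toStarSubalgebra.smul_mem (flow_mem S _ hxM) _
  have hsq : ∀ i, ((Real.sqrt (w i) : ℝ) : ℂ) * ((Real.sqrt (w i) : ℝ) : ℂ) = (w i : ℂ) :=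
    fun i => by rw [← Complex.ofReal_mul, Real.mul_self_sqrt (hw0 i)]
  have hXstar : ∀ i, star (X i) = ((Real.sqrt (w i) : ℝ) : ℂ) • S.flow (t i) (star x) := fun i => by
    simp only [X, star_smul, star_flow, Complex.star_def, Complex.conj_ofReal]
  have hXvac : ∀ i, X i S.vac = ((Real.sqrt (w i) : ℝ) : ℂ) • S.D.wave (t i) (x S.vac) :=
    fun i => by simp only [X, _root_.smul_apply, flow_vac]
  -- first moment
  have hA : c / 8 ≤ ∑ i, ‖T (X i S.vac)‖ ^ 2 := by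
    have hpt : ∀ i, w i * (‖T (S.D.wave (t i) h)‖ ^ 2 / 2 - c / 8) ≤ ‖T (X i S.vac)‖ ^ 2 := by
      intro i
      rw [hXvac, map_smul, norm_smul, mul_pow, Complex.norm_real, Real.norm_eq_abs, sq_abs,
        Real.sq_sqrt (hw0 i)]
      refine mul_le_mul_of_nonneg_left ?_ (hw0 i)
      have hd : ‖T (S.D.wave (t i) (x S.vac - h))‖ ≤ ‖T‖ * ε := by
        refine (T.le_opNorm _).trans ?_
        rw [norm_wave_apply]; gcongr
      have htri : ‖T (S.D.wave (t i) h)‖ ≤ ‖T (S.D.wave (t i) (x S.vac))‖ + ‖T‖ * ε := by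
        calc ‖T (S.D.wave (t i) h)‖
            = ‖T (S.D.wave (t i) (x S.vac)) - T (S.D.wave (t i) (x S.vac - h))‖ := by simp
          _ ≤ _ := norm_sub_le _ _
          _ ≤ _ := by linarith
      have h0 := norm_nonneg (T (S.D.wave (t i) h))
      have : ‖T (S.D.wave (t i) h)‖ ^ 2 ≤ (‖T (S.D.wave (t i) (x S.vac))‖ + ‖T‖ * ε) ^ 2 := by
        gcongr
      nlinarith [sq_nonneg (‖T (S.D.wave (t i) (x S.vac))‖ - ‖T‖ * ε)]
    have hs := Finset.sum_le_sum fun i (_ : i ∈ Finset.univ) => hpt i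
    have : ∑ i, w i * (‖T (S.D.wave (t i) h)‖ ^ 2 / 2 - c / 8)
        = (∑ i, w i * ‖T (S.D.wave (t i) h)‖ ^ 2) / 2 - c / 8 * ∑ i, w i := by
      rw [Finset.sum_div, Finset.mul_sum, ← Finset.sum_sub_distrib]
      refine Finset.sum_congr rfl fun i _ => by ring
    rw [this, hw1] at hs
    linarith
  -- diagonal term
  have hB : ‖∑ i, star (X i) (X i S.vac)‖ ≤ 6 := by
    refine le_trans (le_of_eq ?_) h1'
    congr 1
    refine Finset.sum_congr rfl fun i _ => ?_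
    rw [hXstar, hXvac, _root_.smul_apply, map_smul, smul_smul, hsq, flow_apply, wave_neg_wave,
      Complex.coe_smul]
  -- off diagonal terms
  have hC : ∑ i, ∑ j, ‖star (X i) (X j S.vac)‖ ^ 2 ≤ E * 6 := by
    let B : H →L[ℂ] H := ∑ i, X i * star (X i)
    have hBM : B ∈ S.M := sum_mem fun i _ => mul_mem (hXM i) (star_mem (hXM i))
    have hBstar : star B = B := by simp [B, star_sum]
    have hBvac : B S.vac = ∑ i, w i • S.D.wave (t i) (x (star x S.vac)) := by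
      simp only [B, _root_.sum_apply]
      refine Finset.sum_congr rfl fun i _ => ?_
      rw [mul_apply_eq_comp, hXstar]
      simp only [X]
      rw [_root_.smul_apply, _root_.smul_apply, map_smul, smul_smul, hsq, flow_vac, flow_apply,
        wave_neg_wave, Complex.coe_smul]
    have hj : ∀ j, ((∑ i, ‖star (X i) (X j S.vac)‖ ^ 2 : ℝ) : ℂ)
        = ⟪B S.vac, w j • S.D.wave (t j) y⟫_ℂ := by
      intro j
      have a1 : ((∑ i, ‖star (X i) (X j S.vac)‖ ^ 2 : ℝ) : ℂ)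
          = ⟪X j S.vac, B (X j S.vac)⟫_ℂ := by
        simp only [B, _root_.sum_apply, inner_sum]
        push_cast
        refine Finset.sum_congr rfl fun i _ => ?_
        rw [Function.comp_apply, ← ContinuousLinearMap.adjoint_inner_left,
          ← ContinuousLinearMap.star_eq_adjoint, inner_self_eq_norm_sq_to_K]
        rfl
      have a2 := hy (S.flow (-t j) B) (flow_mem S _ hBM)
      rw [star_flow, hBstar, flow_vac, flow_apply, neg_neg, inner_wave_right, neg_neg,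
        inner_wave_left S.D (-t j), neg_neg] at a2
      rw [a1, hXvac, map_smul, inner_smul_left, inner_smul_right, a2, ← Complex.coe_smul,
        inner_smul_right, Complex.conj_ofReal, ← mul_assoc, hsq]
    have hsum : ((∑ i, ∑ j, ‖star (X i) (X j S.vac)‖ ^ 2 : ℝ) : ℂ)
        = ⟪B S.vac, ∑ j, w j • S.D.wave (t j) y⟫_ℂ := by
      rw [Finset.sum_comm, inner_sum, Complex.ofReal_sum]
      exact Finset.sum_congr rfl fun j _ => hj j
    have hn := norm_inner_le_norm (𝕜 := ℂ) (B S.vac) (∑ j, w j • S.D.wave (t j) y)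
    rw [← hsum, Complex.norm_real, Real.norm_eq_abs, hBvac] at hn
    refine (le_abs_self _).trans (hn.trans ?_)
    gcongr
  obtain ⟨z, hz⟩ := exists_phases X S.vac T μ hμ0.le
  set v : H →L[ℂ] H := ∑ i, z i • X i with hv
  have hvM : v ∈ S.M := sum_mem fun i _ => S.M.toStarSubalgebra.smul_mem (hXM i) _
  have hmain : c / 16 + μ * ‖star v (v S.vac)‖ ^ 2 ≤ ‖T (v S.vac)‖ ^ 2 := by
    have hB2 : ‖∑ i, star (X i) (X i S.vac)‖ ^ 2 ≤ 6 ^ 2 := by gcongr
    have hle : 2 * ‖∑ i, star (X i) (X i S.vac)‖ ^ 2 + 2 * ∑ i, ∑ j, ‖star (X i) (X j S.vac)‖ ^ 2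
        ≤ K := by rw [hK]; linarith
    have hμK : μ * K = c / 16 := by rw [hμ]; field_simp
    nlinarith [mul_le_mul_of_nonneg_left hle hμ0.le]
  obtain ⟨v', hv'M, hv'C, hv'⟩ := exists_truncation S.M hvM hC₀0
  obtain ⟨ρ, f, hρ, hρL, hrep, hf1, hf0, hfle⟩ := hL s (2 * δ) (by positivity)
  have hfv : S.D.apply f (v S.vac) = v S.vac := by
    simp only [hv, _root_.sum_apply, _root_.smul_apply, map_sum, map_smul, hXvac, app_wave_comm,
      hxf f hf1]
  have hvac : smear S volume ρ hρ v' S.vac = S.D.apply f (v' S.vac) := smear_vac S _ _ _ f hrep _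
  refine ⟨smear S volume ρ hρ v', smear_mem S _ _ _ hv'M, ?_, ?_, ?_⟩
  · refine (norm_smear_le S _ _ _ _).trans ?_
    gcongr
  · rw [hvac]
    set R := ‖star v (v S.vac)‖ with hR
    set A := ‖T (v S.vac)‖ with hAdef
    have hR0 : 0 ≤ R := norm_nonneg _
    have hA0 : 0 ≤ A := norm_nonneg _
    have hd : ‖T (S.D.apply f (v S.vac - v' S.vac))‖ ≤ ‖T‖ * (R / C₀) := by
      refine (T.le_opNorm _).trans ?_
      gcongr
      refine (norm_app_apply_le_of_bound S.D f _ hfle).trans ?_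
      rw [one_mul]; exact hv' _
    have htri : A ≤ ‖T (S.D.apply f (v' S.vac))‖ + ‖T‖ * (R / C₀) := by
      calc A = ‖T (S.D.apply f (v' S.vac)) + T (S.D.apply f (v S.vac - v' S.vac))‖ := by
            rw [hAdef]; simp [hfv]
        _ ≤ _ := norm_add_le _ _
        _ ≤ _ := by linarith
    have hs : 0 < Real.sqrt μ := Real.sqrt_pos.2 hμ0
    have b1 : ‖T‖ * (R / C₀) ≤ Real.sqrt μ * R / 2 := by
      have : ‖T‖ * (R / C₀) = (‖T‖ / (‖T‖ + 1)) * (Real.sqrt μ * R / 2) := by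
        rw [hC₀]; field_simp
      rw [this]
      refine mul_le_of_le_one_left (by positivity) ?_
      rw [div_le_one (by positivity)]; linarith
    have b2 : Real.sqrt μ * R ≤ A := by
      refine (pow_le_pow_iff_left₀ (by positivity) hA0 two_ne_zero).1 ?_
      rw [mul_pow, Real.sq_sqrt hμ0.le]; linarith
    have b3 : Real.sqrt c / 4 ≤ A := by
      refine (pow_le_pow_iff_left₀ (by positivity) hA0 two_ne_zero).1 ?_
      rw [div_pow, Real.sq_sqrt hc.le]
      have : 0 ≤ μ * R ^ 2 := by positivity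
      linarith
    linarith
  · intro g hg0
    rw [hvac, ← app_mul_apply]
    have : g * f = 0 := by
      ext u
      by_cases hu : u ∈ Set.Ioo (s - 2 * (2 * δ)) (s + 2 * (2 * δ))
      · simp [hg0 u ⟨by linarith [hu.1], by linarith [hu.2]⟩]
      · simp [hf0 u hu]
    rw [this, map_zero]; rfl

end Crest.Agent.R084
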